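import Vale.Agent.P309.Sphere
import Vale.Agent.P226h14.Slice

/-!
Replicas in one cell: the collision probability and its moment.
-/

open MeasureTheory ProbabilityTheory Real Set Filter Topology
open scoped RealInnerProductSpace ENNReal

namespace Vale.Agent.P309

variable {d : ℕ}

open Vale.Agent.P226h14 in
/-- A short interval has small standard Gaussian mass. -/
lemma gaussian_short (h c δ : ℝ) (hh : 0 < h) (hδ : 0 < δ) :
    gaussianReal 0 1 {r | |h * r + c| < δ} ≤ ENNReal.ofReal (δ / h) := by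
  have hset : {r : ℝ | |h * r + c| < δ} ⊆ Set.Ioo ((-δ - c) / h) ((δ - c) / h) := by
    intro r hr
    have hr' : -δ < h * r + c ∧ h * r + c < δ := abs_lt.mp hr
    constructor
    · rw [div_lt_iff₀ hh]; nlinarith [hr'.1]
    · rw [lt_div_iff₀ hh]; nlinarith [hr'.2]
  have hpdf : ∀ x : ℝ, gaussianPDF 0 1 x ≤ ENNReal.ofReal (1 / 2) := by
    intro x
    rw [gaussianPDF_def]
    apply ENNReal.ofReal_le_ofReal
    rw [gaussianPDFReal]
    have h1 : rexp (-(x - 0) ^ 2 / (2 * ((1 : NNReal) : ℝ))) ≤ 1 := by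
      apply Real.exp_le_one_iff.mpr
      have : 0 ≤ (x - 0) ^ 2 := sq_nonneg _
      simp only [NNReal.coe_one, mul_one]
      linarith
    have h2 : (2 : ℝ) ≤ √(2 * π * ((1 : NNReal) : ℝ)) := by
      apply Real.le_sqrt_of_sq_le
      simp only [NNReal.coe_one, mul_one]
      nlinarith [Real.pi_gt_three]
    have h3 : (√(2 * π * ((1 : NNReal) : ℝ)))⁻¹ ≤ 1 / 2 := by
      rw [one_div]
      exact inv_anti₀ (by norm_num) h2
    have h4 : 0 ≤ rexp (-(x - 0) ^ 2 / (2 * ((1 : NNReal) : ℝ))) := (Real.exp_pos _).le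
    calc (√(2 * π * ((1 : NNReal) : ℝ)))⁻¹ * rexp (-(x - 0) ^ 2 / (2 * ((1 : NNReal) : ℝ)))
        ≤ (1 / 2) * 1 := by
          apply mul_le_mul h3 h1 h4 (by norm_num)
      _ = 1 / 2 := by norm_num
  calc gaussianReal 0 1 {r | |h * r + c| < δ}
      ≤ gaussianReal 0 1 (Set.Ioo ((-δ - c) / h) ((δ - c) / h)) := measure_mono hset
    _ = ∫⁻ x in Set.Ioo ((-δ - c) / h) ((δ - c) / h), gaussianPDF 0 1 x :=
        gaussianReal_apply _ one_ne_zero _
    _ ≤ ∫⁻ _x in Set.Ioo ((-δ - c) / h) ((δ - c) / h), ENNReal.ofReal (1 / 2) :=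
        lintegral_mono fun x => hpdf x
    _ = ENNReal.ofReal (1 / 2) * volume (Set.Ioo ((-δ - c) / h) ((δ - c) / h)) := by
        rw [lintegral_const, Measure.restrict_apply MeasurableSet.univ, Set.univ_inter]
    _ = ENNReal.ofReal (δ / h) := by
        rw [Real.volume_Ioo, ← ENNReal.ofReal_mul (by norm_num)]
        congr 1
        field_simp
        ring

/-- The span of the first `k` replicas does not see the later replicas. -/
lemma spanBelow_castSucc {u : ℕ} (s : Fin (u + 1 + 1) → E d) {k : ℕ} (hk : k ≤ u + 1) :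
    spanBelow s k = spanBelow (s ∘ Fin.castSucc) k := by
  unfold spanBelow
  congr 1
  ext x
  constructor
  · rintro ⟨j, hj, rfl⟩
    have hj' : (j : ℕ) < k := hj
    refine ⟨⟨j, by omega⟩, hj', ?_⟩
    simp [Fin.castSucc]
  · rintro ⟨j, hj, rfl⟩
    exact ⟨Fin.castSucc j, hj, rfl⟩

open Vale.Agent.P226h14 in
/-- The inductive step of the row collision bound. -/
lemma row_step {u : ℕ} (s : Fin (u + 1 + 1) → E d) {δ : ℝ} (hδ : 0 < δ) :
    stdGaussian (E d) {a | ∀ j, |⟪a, s j - s 0⟫| < δ} ≤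
      stdGaussian (E d) {a | ∀ j : Fin (u + 1), |⟪a, s j.castSucc - s 0⟫| < δ} *
        (ENNReal.ofReal δ * (ENNReal.ofReal (hdist (spanBelow s (u + 1)) (s (Fin.last (u + 1)))))⁻¹) := by
  set W := spanBelow s (u + 1) with hW
  set x := s (Fin.last (u + 1)) with hx
  set h := hdist W x with hh
  have hA' : MeasurableSet {a : E d | ∀ j : Fin (u + 1), |⟪a, s j.castSucc - s 0⟫| < δ} := by
    have : {a : E d | ∀ j : Fin (u + 1), |⟪a, s j.castSucc - s 0⟫| < δ} =
        ⋂ j : Fin (u + 1), {a : E d | |⟪a, s j.castSucc - s 0⟫| < δ} := by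
      ext a; simp
    rw [this]
    refine MeasurableSet.iInter fun j => ?_
    exact (isOpen_lt (by fun_prop) continuous_const).measurableSet
  have hA : MeasurableSet {a : E d | ∀ j, |⟪a, s j - s 0⟫| < δ} := by
    have : {a : E d | ∀ j, |⟪a, s j - s 0⟫| < δ} =
        ⋂ j, {a : E d | |⟪a, s j - s 0⟫| < δ} := by
      ext a; simp
    rw [this]
    refine MeasurableSet.iInter fun j => ?_
    exact (isOpen_lt (by fun_prop) continuous_const).measurableSet
  have hmono : {a : E d | ∀ j, |⟪a, s j - s 0⟫| < δ} ⊆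
      {a : E d | ∀ j : Fin (u + 1), |⟪a, s j.castSucc - s 0⟫| < δ} := fun a ha j => ha _
  rcases ((norm_nonneg _ : (0:ℝ) ≤ hdist W x)).lt_or_eq with hpos | hzero
  · -- the main case: the new replica has a component off the span
    have hpos' : 0 < h := hpos
    set P := W.starProjection x with hP
    set n : E d := (1 / h) • (x - P) with hn
    have hxP : ‖x - P‖ = h := rfl
    have hnorm : ‖n‖ = 1 := by
      rw [hn, norm_smul, hxP, Real.norm_eq_abs, abs_of_pos (by positivity)]
      field_simp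
    have hperp : ∀ w ∈ W, ⟪w, n⟫ = 0 := by
      intro w hw
      rw [hn, inner_smul_right]
      have : ⟪w, x - P⟫ = 0 :=
        (Submodule.mem_orthogonal W _).mp (Submodule.sub_starProjection_mem_orthogonal x) w hw
      rw [this, mul_zero]
    have hs0 : s 0 ∈ W := Submodule.subset_span ⟨0, by simp, rfl⟩
    have hsj : ∀ j : Fin (u + 1), s j.castSucc ∈ W := fun j =>
      Submodule.subset_span ⟨j.castSucc, j.2, rfl⟩
    have hPW : P ∈ W := Submodule.starProjection_apply_mem W x
    set w₀ := P - s 0 with hw₀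
    have hw₀W : w₀ ∈ W := W.sub_mem hPW hs0
    have hdecomp : x - s 0 = h • n + w₀ := by
      rw [hn, smul_smul, hw₀]
      have : h * (1 / h) = 1 := by field_simp
      rw [this, one_smul]
      abel
    have hslice_in : ∀ (y : E d) (r : ℝ) (w : E d), w ∈ W → ⟪slice n (y, r), w⟫ = ⟪y, w⟫ := by
      intro y r w hw
      rw [real_inner_comm, inner_slice, hperp w hw, mul_zero, add_zero, real_inner_comm]
    have hslice_n : ∀ (y : E d) (r : ℝ), ⟪slice n (y, r), n⟫ = r := by
      intro y r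
      rw [real_inner_comm, inner_slice, real_inner_self_eq_norm_sq, hnorm]
      ring
    have hfiber : ∀ y : E d, gaussianReal 0 1 {r | slice n (y, r) ∈
        {a : E d | ∀ j, |⟪a, s j - s 0⟫| < δ}} ≤
        ({a : E d | ∀ j : Fin (u + 1), |⟪a, s j.castSucc - s 0⟫| < δ}).indicator
          (fun _ => ENNReal.ofReal (δ / h)) y := by
      intro y
      by_cases hy : y ∈ {a : E d | ∀ j : Fin (u + 1), |⟪a, s j.castSucc - s 0⟫| < δ}
      · rw [Set.indicator_of_mem hy]
        refine le_trans (measure_mono ?_) (gaussian_short h ⟪y, w₀⟫ δ hpos' hδ)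
        intro r hr
        have h1 := hr (Fin.last (u + 1))
        rw [← hx, hdecomp, inner_add_right, inner_smul_right, hslice_n, hslice_in y r w₀ hw₀W] at h1
        exact h1
      · rw [Set.indicator_of_notMem hy]
        have hempty : {r | slice n (y, r) ∈ {a : E d | ∀ j, |⟪a, s j - s 0⟫| < δ}} = ∅ := by
          ext r
          simp only [Set.mem_empty_iff_false, iff_false]
          intro hr
          apply hy
          intro j
          have h1 := hr j.castSucc
          rw [hslice_in y r _ (W.sub_mem (hsj j) hs0)] at h1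
          exact h1
        rw [hempty]
        simp
    rw [measure_slice n hnorm hA]
    calc ∫⁻ y, gaussianReal 0 1 {r | slice n (y, r) ∈ {a : E d | ∀ j, |⟪a, s j - s 0⟫| < δ}}
          ∂(stdGaussian (E d))
        ≤ ∫⁻ y, ({a : E d | ∀ j : Fin (u + 1), |⟪a, s j.castSucc - s 0⟫| < δ}).indicator
          (fun _ => ENNReal.ofReal (δ / h)) y ∂(stdGaussian (E d)) := lintegral_mono hfiber
      _ = ENNReal.ofReal (δ / h) *
          stdGaussian (E d) {a : E d | ∀ j : Fin (u + 1), |⟪a, s j.castSucc - s 0⟫| < δ} :=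
          lintegral_indicator_const hA' _
      _ = _ := by
          rw [mul_comm, ENNReal.ofReal_div_of_pos hpos', div_eq_mul_inv]
  · -- the degenerate case: the factor is infinite
    have hz : h = 0 := hzero.symm
    rw [hz]
    simp only [ENNReal.ofReal_zero, ENNReal.inv_zero]
    rw [ENNReal.mul_top (by simpa using hδ)]
    rw [ENNReal.mul_top']
    split_ifs with h0
    · -- the previous set is null, so the smaller one is too
      exact le_of_le_of_eq (measure_mono hmono) h0
    · exact le_top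

/-- One row: the probability that all replicas have labels within `δ` of that of the first. -/
theorem row_collision {u : ℕ} (s : Fin (u + 1) → E d) {δ : ℝ} (hδ : 0 < δ) :
    stdGaussian (E d) {a | ∀ j, |⟪a, s j - s 0⟫| < δ} ≤
      ∏ j : Fin u, (ENNReal.ofReal δ * (ENNReal.ofReal (hdist (spanBelow s (j + 1)) (s j.succ)))⁻¹) := by
  induction u with
  | zero =>
    simp only [Finset.univ_eq_empty, Finset.prod_empty]
    exact prob_le_one
  | succ u ih =>
    refine (row_step s hδ).trans ?_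
    rw [Fin.prod_univ_castSucc]
    have hih := ih (s ∘ Fin.castSucc)
    have hrw : (∏ j : Fin u, (ENNReal.ofReal δ *
          (ENNReal.ofReal (hdist (spanBelow (s ∘ Fin.castSucc) (j + 1))
            ((s ∘ Fin.castSucc) j.succ)))⁻¹)) =
        ∏ j : Fin u, (ENNReal.ofReal δ *
          (ENNReal.ofReal (hdist (spanBelow s ((j.castSucc : Fin (u + 1)) + 1))
            (s (j.castSucc : Fin (u + 1)).succ)))⁻¹) := by
      refine Finset.prod_congr rfl fun j _ => ?_
      have h1 : spanBelow (s ∘ Fin.castSucc) ((j : ℕ) + 1) =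
          spanBelow s ((j.castSucc : Fin (u + 1)) + 1) := by
        rw [Fin.val_castSucc]
        exact (spanBelow_castSucc s (by omega)).symm
      have h2 : (s ∘ Fin.castSucc) j.succ = s (j.castSucc : Fin (u + 1)).succ := by
        simp only [Function.comp, Fin.succ_castSucc]
      rw [h1, h2]
    rw [hrw] at hih
    have hlast : (Fin.last u).succ = Fin.last (u + 1) := Fin.succ_last u
    have hval : ((Fin.last u : Fin (u + 1)) : ℕ) + 1 = u + 1 := by simp
    rw [hlast, hval]
    refine mul_le_mul_left ?_ _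
    have h0 : s 0 = (s ∘ Fin.castSucc) 0 := by simp [Function.comp]
    have hsets : {a : E d | ∀ j : Fin (u + 1), |⟪a, s j.castSucc - s 0⟫| < δ} =
        {a : E d | ∀ j : Fin (u + 1), |⟪a, (s ∘ Fin.castSucc) j - (s ∘ Fin.castSucc) 0⟫| < δ} := by
      rw [← h0]; rfl
    rw [hsets]
    exact hih

/-- Peeling the last coordinate of a product of probability measures, with no measurability
assumption on the integrand (the Lebesgue integral is a lower integral). -/
lemma lintegral_pi_snoc_le {X : Type} [MeasurableSpace X] (σ : Measure X)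
    [IsProbabilityMeasure σ] (k : ℕ) (f : (Fin (k + 1) → X) → ℝ≥0∞) :
    ∫⁻ s, f s ∂(Measure.pi fun _ : Fin (k + 1) => σ) ≤
      ∫⁻ s', ∫⁻ x, f (Fin.snoc (α := fun _ => X) s' x) ∂σ ∂(Measure.pi fun _ : Fin k => σ) := by
  obtain ⟨g, hg, hgf, hint⟩ :=
    exists_measurable_le_lintegral_eq (μ := Measure.pi fun _ : Fin (k + 1) => σ) f
  rw [hint]
  have mp := measurePreserving_piFinSuccAbove (fun _ : Fin (k + 1) => σ) (Fin.last k)
  set e := MeasurableEquiv.piFinSuccAbove (fun _ : Fin (k + 1) => X) (Fin.last k) with he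
  have h1 : ∫⁻ s, g s ∂(Measure.pi fun _ : Fin (k + 1) => σ) =
      ∫⁻ z, g (e.symm z) ∂(σ.prod (Measure.pi fun _ : Fin k => σ)) :=
    ((mp.symm e).lintegral_comp hg).symm
  have h1' := lintegral_prod_symm (μ := σ) (ν := Measure.pi fun _ : Fin k => σ)
    (fun z => g (e.symm z)) ((hg.comp e.symm.measurable).aemeasurable)
  rw [h1, h1']
  refine lintegral_mono fun s' => lintegral_mono fun x => ?_
  have h2 : e.symm (x, s') = Fin.snoc (α := fun _ => X) s' x := by
    simp [he, MeasurableEquiv.piFinSuccAbove]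
    rfl
  rw [h2]
  exact hgf _

/-- The one step bound for the last replica. -/
lemma moment_one {u : ℕ} (hu : 8 * u ≤ d) (hu1 : 1 ≤ u) (W : Submodule ℝ (E d))
    (hW : Module.finrank ℝ W ≤ u) :
    ∫⁻ x, ((ENNReal.ofReal (hdist W x))⁻¹) ^ (6 * u) ∂(sphereM d) ≤
      ENNReal.ofReal ((2 : ℝ) ^ (3 * u)) := by
  have h6 : 6 * u = 2 * (3 * u) := by ring
  rw [h6]
  refine (moment_hdist W (h := 3 * u) (by omega)).trans (ENNReal.ofReal_le_ofReal ?_)
  have hU : (1 : ℝ) ≤ u := by exact_mod_cast hu1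
  have hD : 8 * (u : ℝ) ≤ d := by exact_mod_cast hu
  have hR : (Module.finrank ℝ W : ℝ) ≤ u := by exact_mod_cast hW
  have hR0 : (0 : ℝ) ≤ Module.finrank ℝ W := by positivity
  push_cast
  have hden : 0 < (d : ℝ) - Module.finrank ℝ W - 2 * (3 * u) := by nlinarith
  have hnum : 0 ≤ (d : ℝ) - 2 * (3 * u) := by nlinarith
  apply pow_le_pow_left₀ (div_nonneg hnum hden.le)
  rw [div_le_iff₀ hden]
  nlinarith

/-- Sequential integration over the replicas, with a free number of replicas. -/
lemma moment_rows_aux {u : ℕ} (hu : 8 * u ≤ d) (hu1 : 1 ≤ u) (k : ℕ) (hk : k ≤ u) :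
    ∫⁻ s : Fin (k + 1) → E d,
      (∏ j : Fin k, (ENNReal.ofReal (hdist (spanBelow s (j + 1)) (s j.succ)))⁻¹) ^ (6 * u)
        ∂(Measure.pi fun _ => sphereM d) ≤ ENNReal.ofReal ((2 : ℝ) ^ (3 * u * k)) := by
  induction k with
  | zero =>
    simp
  | succ k ih =>
    refine (lintegral_pi_snoc_le (sphereM d) (k + 1) _).trans ?_
    have hfact : ∀ (s' : Fin (k + 1) → E d) (x : E d),
        (∏ j : Fin (k + 1), (ENNReal.ofReal (hdist
            (spanBelow (Fin.snoc (α := fun _ => E d) s' x) (j + 1))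
            ((Fin.snoc (α := fun _ => E d) s' x : Fin (k + 1 + 1) → E d) j.succ)))⁻¹) ^ (6 * u) =
        (∏ j : Fin k, (ENNReal.ofReal (hdist (spanBelow s' (j + 1)) (s' j.succ)))⁻¹) ^ (6 * u) *
          ((ENNReal.ofReal (hdist (Submodule.span ℝ (Set.range s')) x))⁻¹) ^ (6 * u) := by
      intro s' x
      rw [← mul_pow, Fin.prod_univ_castSucc]
      congr 2
      · refine Finset.prod_congr rfl fun j _ => ?_
        have h1 : spanBelow (Fin.snoc (α := fun _ => E d) s' x : Fin (k + 1 + 1) → E d)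
            (((j.castSucc : Fin (k + 1)) : ℕ) + 1) = spanBelow s' ((j : ℕ) + 1) := by
          rw [Fin.val_castSucc, spanBelow_castSucc _ (by omega)]
          congr 1
          ext i
          simp [Function.comp]
        have h2 : (Fin.snoc (α := fun _ => E d) s' x : Fin (k + 1 + 1) → E d)
            (j.castSucc : Fin (k + 1)).succ = s' j.succ := by
          rw [Fin.succ_castSucc, Fin.snoc_castSucc]
        rw [h1, h2]
      · have h1 : spanBelow (Fin.snoc (α := fun _ => E d) s' x : Fin (k + 1 + 1) → E d)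
            (((Fin.last k : Fin (k + 1)) : ℕ) + 1) = Submodule.span ℝ (Set.range s') := by
          unfold spanBelow
          congr 1
          ext y
          constructor
          · rintro ⟨i, hi, rfl⟩
            have hi' : (i : ℕ) < k + 1 := by simpa using hi
            refine ⟨⟨i, hi'⟩, ?_⟩
            have : i = Fin.castSucc ⟨i, hi'⟩ := by ext; simp
            have h3 : (Fin.snoc (α := fun _ => E d) s' x : Fin (k + 1 + 1) → E d) (Fin.castSucc ⟨i, hi'⟩)
                = s' ⟨i, hi'⟩ := Fin.snoc_castSucc _ _ _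
            rw [← this] at h3
            exact h3.symm
          · rintro ⟨i, rfl⟩
            refine ⟨Fin.castSucc i, ?_, by simp⟩
            have := i.2
            show ((Fin.castSucc i : Fin (k + 1 + 1)) : ℕ) < ((Fin.last k : Fin (k + 1)) : ℕ) + 1
            simpa using this
        have h2 : (Fin.snoc (α := fun _ => E d) s' x : Fin (k + 1 + 1) → E d)
            (Fin.last k : Fin (k + 1)).succ = x := by
          rw [Fin.succ_last]; simp
        rw [h1, h2]
    simp_rw [hfact]
    have hinner : ∀ s' : Fin (k + 1) → E d,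
        ∫⁻ x, (∏ j : Fin k, (ENNReal.ofReal (hdist (spanBelow s' (j + 1)) (s' j.succ)))⁻¹) ^ (6 * u) *
          ((ENNReal.ofReal (hdist (Submodule.span ℝ (Set.range s')) x))⁻¹) ^ (6 * u) ∂(sphereM d) ≤
        (∏ j : Fin k, (ENNReal.ofReal (hdist (spanBelow s' (j + 1)) (s' j.succ)))⁻¹) ^ (6 * u) *
          ENNReal.ofReal ((2 : ℝ) ^ (3 * u)) := by
      intro s'
      set W := Submodule.span ℝ (Set.range s') with hW
      have hmeas : Measurable fun x : E d => ((ENNReal.ofReal (hdist W x))⁻¹) ^ (6 * u) := by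
        have hc : Continuous fun x : E d => hdist W x := by
          unfold hdist
          have := W.starProjection.continuous
          fun_prop
        exact (ENNReal.measurable_ofReal.comp hc.measurable).inv.pow_const _
      rw [lintegral_const_mul _ hmeas]
      refine mul_le_mul_right (moment_one hu hu1 W ?_) _
      have h1 : (Set.range s').finrank ℝ ≤ Fintype.card (Fin (k + 1)) := finrank_range_le_card s'
      have h2 : Module.finrank ℝ W = (Set.range s').finrank ℝ := rfl
      rw [h2]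
      simp only [Fintype.card_fin] at h1
      omega
    refine (lintegral_mono hinner).trans ?_
    rw [lintegral_mul_const' _ _ ENNReal.ofReal_ne_top]
    refine (mul_le_mul_left (ih (by omega)) _).trans ?_
    rw [← ENNReal.ofReal_mul (by positivity)]
    apply ENNReal.ofReal_le_ofReal
    rw [← pow_add]
    apply le_of_eq
    congr 1

/-- Sequential integration over the replicas. -/
theorem moment_rows {u : ℕ} (hu : 8 * u ≤ d) (hu1 : 1 ≤ u) :
    ∫⁻ s : Fin (u + 1) → E d,
      (∏ j : Fin u, (ENNReal.ofReal (hdist (spanBelow s (j + 1)) (s j.succ)))⁻¹) ^ (6 * u)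
        ∂(Measure.pi fun _ => sphereM d) ≤ ENNReal.ofReal ((2 : ℝ) ^ (3 * u * u)) :=
  moment_rows_aux hu hu1 u le_rfl

/-- Same cell implies close labels. -/
lemma cell_subset {u : ℕ} (w n : ℕ) (s : Fin (u + 1) → E d) :
    {A : Rows d w | ∀ j, cell n A (s j) = cell n A (s 0)} ⊆
      Set.pi Set.univ fun _ => {a : E d | ∀ j, |⟪a, s j - s 0⟫| < (1 / 2 : ℝ) ^ n} := by
  intro A hA l _ j
  have h1 : ⌊(2 : ℝ) ^ n * ⟪A l, s j⟫⌋ = ⌊(2 : ℝ) ^ n * ⟪A l, s 0⟫⌋ := congrFun (hA j) l
  have h2 := Int.abs_sub_lt_one_of_floor_eq_floor h1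
  rw [inner_sub_right]
  have h3 : (2 : ℝ) ^ n * ⟪A l, s j⟫ - (2 : ℝ) ^ n * ⟪A l, s 0⟫ =
      (2 : ℝ) ^ n * (⟪A l, s j⟫ - ⟪A l, s 0⟫) := by ring
  rw [h3, abs_mul, abs_of_pos (by positivity : (0 : ℝ) < 2 ^ n)] at h2
  have h4 : (0 : ℝ) < 2 ^ n := by positivity
  have h5 : ((1 : ℝ) / 2) ^ n = ((2 : ℝ) ^ n)⁻¹ := by
    rw [one_div, inv_pow]
  rw [h5]
  rw [← one_div, lt_div_iff₀ h4]
  linarith

/-- The collision probability is at most the power of the row probability. -/
lemma collide_le {u : ℕ} (w n : ℕ) (s : Fin (u + 1) → E d) :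
    collide (rowsM d w) (cell n) s ≤
      (∏ j : Fin u, (ENNReal.ofReal ((1 / 2 : ℝ) ^ n) *
        (ENNReal.ofReal (hdist (spanBelow s (j + 1)) (s j.succ)))⁻¹)) ^ w := by
  unfold collide
  refine (measure_mono (cell_subset w n s)).trans ?_
  unfold rowsM
  rw [Measure.pi_pi]
  simp only [Finset.prod_const, Finset.card_univ, Fintype.card_fin]
  exact pow_le_pow_left' (row_collision s (by positivity)) _

/-- Arithmetic of the exponents. -/
lemma aux_pow (δ : ℝ) (hδ : 0 ≤ δ) (u : ℕ) :
    (δ ^ (6 * u * u) * (2 : ℝ) ^ (3 * u * u)) ^ (2 / 3 : ℝ) =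
      (2 : ℝ) ^ (2 * u * u) * δ ^ (4 * u * u) := by
  have hY0 : 0 ≤ δ ^ (2 * u * u) * (2 : ℝ) ^ (u * u) := by positivity
  have h3 : δ ^ (6 * u * u) * (2 : ℝ) ^ (3 * u * u) =
      (δ ^ (2 * u * u) * (2 : ℝ) ^ (u * u)) ^ (3 : ℝ) := by
    rw [Real.rpow_ofNat, mul_pow, ← pow_mul, ← pow_mul]
    congr 2 <;> ring
  have h4 : (2 : ℝ) ^ (2 * u * u) * δ ^ (4 * u * u) =
      (δ ^ (2 * u * u) * (2 : ℝ) ^ (u * u)) ^ (2 : ℝ) := by
    rw [Real.rpow_ofNat, mul_pow, ← pow_mul, ← pow_mul, mul_comm]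
    congr 2 <;> ring
  rw [h3, h4, ← Real.rpow_mul hY0]
  norm_num

/-- The collision moment at scale `2^(-n)`, for `w = 4 u` rows. -/
theorem collide_moment {u : ℕ} (hu : 8 * u ≤ d) (hu1 : 1 ≤ u) (n : ℕ) :
    (∫⁻ s : Fin (u + 1) → E d,
        (collide (rowsM d (4 * u)) (cell n) s) ^ (3 / 2 : ℝ) ∂(Measure.pi fun _ => sphereM d)) ^
      (2 / 3 : ℝ) ≤ ENNReal.ofReal ((2 : ℝ) ^ (2 * u * u) * ((1 / 2 : ℝ) ^ n) ^ (4 * u * u)) := by
  set δ : ℝ := (1 / 2 : ℝ) ^ n with hδ
  have hδ0 : 0 < δ := by positivity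
  have hpt : ∀ s : Fin (u + 1) → E d,
      (collide (rowsM d (4 * u)) (cell n) s) ^ (3 / 2 : ℝ) ≤
        ENNReal.ofReal (δ ^ (6 * u * u)) *
          (∏ j : Fin u, (ENNReal.ofReal (hdist (spanBelow s (j + 1)) (s j.succ)))⁻¹) ^ (6 * u) := by
    intro s
    have h1 := collide_le (4 * u) n s
    have h2 : (∏ j : Fin u, (ENNReal.ofReal δ *
        (ENNReal.ofReal (hdist (spanBelow s (j + 1)) (s j.succ)))⁻¹)) =
        ENNReal.ofReal δ ^ u *
          ∏ j : Fin u, (ENNReal.ofReal (hdist (spanBelow s (j + 1)) (s j.succ)))⁻¹ := by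
      rw [Finset.prod_mul_distrib]
      simp
    rw [h2] at h1
    set X := ENNReal.ofReal δ ^ u *
      ∏ j : Fin u, (ENNReal.ofReal (hdist (spanBelow s (j + 1)) (s j.succ)))⁻¹ with hX
    have h3 : (collide (rowsM d (4 * u)) (cell n) s) ^ (3 / 2 : ℝ) ≤ (X ^ (4 * u)) ^ (3 / 2 : ℝ) :=
      ENNReal.rpow_le_rpow h1 (by norm_num)
    refine h3.trans (le_of_eq ?_)
    have h4 : (X ^ (4 * u)) ^ (3 / 2 : ℝ) = X ^ (6 * u) := by
      rw [← ENNReal.rpow_natCast, ← ENNReal.rpow_mul, ← ENNReal.rpow_natCast]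
      congr 1
      push_cast
      ring
    rw [h4, hX, mul_pow, ← pow_mul]
    congr 1
    rw [ENNReal.ofReal_pow hδ0.le]
    congr 1
    ring
  have hint : ∫⁻ s : Fin (u + 1) → E d,
        (collide (rowsM d (4 * u)) (cell n) s) ^ (3 / 2 : ℝ) ∂(Measure.pi fun _ => sphereM d) ≤
      ENNReal.ofReal (δ ^ (6 * u * u) * (2 : ℝ) ^ (3 * u * u)) := by
    refine (lintegral_mono hpt).trans ?_
    rw [lintegral_const_mul' _ _ ENNReal.ofReal_ne_top, ENNReal.ofReal_mul (by positivity)]
    exact mul_le_mul_right (moment_rows hu hu1) _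
  refine (ENNReal.rpow_le_rpow hint (by norm_num)).trans (le_of_eq ?_)
  rw [ENNReal.ofReal_rpow_of_nonneg (by positivity) (by norm_num)]
  congr 1
  exact aux_pow δ hδ0.le u

end Vale.Agent.P309
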