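import Vale.Agent.P309.Gain
import Vale.Agent.P309.Collision

/-!
The gain inequality for dyadic cells of Gaussian rows.
-/

open MeasureTheory ProbabilityTheory Real Set Filter Topology
open scoped RealInnerProductSpace ENNReal

namespace Vale.Agent.P309

variable {d : ℕ}

/-- The set of cells of moderate size. -/
noncomputable def inner' (n w : ℕ) : Set (Fin w → ℤ) :=
  {i | ∑ l, (|(i l : ℝ)| * (1 / 2 : ℝ) ^ n) ≤ 3 * w}

/-- The threshold on the mass of a cell. -/
noncomputable def tauC (n u : ℕ) : ℝ := rexp (-(20 * u : ℝ)) * ((1 / 2 : ℝ) ^ n) ^ (4 * u)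

/-- The good set. -/
noncomputable def goodSet (n d u : ℕ) : Set (Rows d (4 * u) × (Fin (4 * u) → ℤ)) :=
  {p | p.2 ∈ inner' n (4 * u) ∧ tauC n u ≤ (sphereM d).real {s | cell n p.1 s = p.2}}

theorem measurable_cell (n d w : ℕ) :
    Measurable (Function.uncurry (cell n : Rows d w → E d → (Fin w → ℤ))) := by
  apply measurable_pi_iff.2
  intro l
  have h : Continuous (fun p : Rows d w × E d => (2 : ℝ) ^ n * ⟪p.1 l, p.2⟫) := by fun_prop
  exact Int.measurable_floor.comp h.measurable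

/-- The mass of a cell is measurable. -/
lemma measurable_mass (n d w : ℕ) :
    Measurable (fun p : Rows d w × (Fin w → ℤ) => (sphereM d).real {s | cell n p.1 s = p.2}) := by
  set S : Set ((Rows d w × (Fin w → ℤ)) × E d) := {q | cell n q.1.1 q.2 = q.1.2} with hS
  have hmS : MeasurableSet S := by
    have h1 : Measurable (fun q : (Rows d w × (Fin w → ℤ)) × E d =>
        (Function.uncurry (cell n : Rows d w → E d → (Fin w → ℤ)) (q.1.1, q.2), q.1.2)) :=
      ((measurable_cell n d w).comp ((measurable_fst.comp measurable_fst).prodMk measurable_snd)).prodMk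
        (measurable_snd.comp measurable_fst)
    have h2 : MeasurableSet {x : (Fin w → ℤ) × (Fin w → ℤ) | x.1 = x.2} := MeasurableSet.of_discrete
    exact h1 h2
  have h3 := measurable_measure_prodMk_left (ν := sphereM d) hmS
  exact h3.ennreal_toReal

theorem measurableSet_goodSet (n d u : ℕ) : MeasurableSet (goodSet n d u) := by
  have h1 : MeasurableSet {p : Rows d (4 * u) × (Fin (4 * u) → ℤ) | p.2 ∈ inner' n (4 * u)} :=
    measurable_snd (MeasurableSet.of_discrete (s := inner' n (4 * u)))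
  have h2 : MeasurableSet {p : Rows d (4 * u) × (Fin (4 * u) → ℤ) |
      tauC n u ≤ (sphereM d).real {s | cell n p.1 s = p.2}} :=
    measurableSet_le measurable_const (measurable_mass n d (4 * u))
  exact h1.inter h2

section partA

/-- The law of a coordinate. -/
lemma map_inner_gauss {s : E d} (hs : ‖s‖ = 1) :
    (stdGaussian (E d)).map (fun a => ⟪a, s⟫) = gaussianReal 0 1 := by
  have hm : Measurable (fun a : E d => ⟪a, s⟫) := by fun_prop
  have : IsProbabilityMeasure ((stdGaussian (E d)).map (fun a => ⟪a, s⟫)) :=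
    Measure.isProbabilityMeasure_map hm.aemeasurable
  apply Measure.ext_of_charFun
  ext t
  rw [charFun_gaussianReal, charFun_apply, integral_map hm.aemeasurable
    (Measurable.aestronglyMeasurable (by fun_prop))]
  have h1 : ∀ y : E d, Complex.exp (((⟪⟪y, s⟫, t⟫ : ℝ) : ℂ) * Complex.I) =
      Complex.exp (((⟪y, t • s⟫ : ℝ) : ℂ) * Complex.I) := by
    intro y
    congr 3
    simp only [inner_smul_right]
    simp
  simp_rw [h1]
  have h2 := charFun_stdGaussian (E := E d) (t • s)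
  rw [charFun_apply] at h2
  rw [h2]
  rw [norm_smul, hs, mul_one, Real.norm_eq_abs]
  have e3 : ((|t| : ℝ) : ℂ) ^ 2 = (t : ℂ) ^ 2 := by
    rw [← Complex.ofReal_pow, sq_abs, Complex.ofReal_pow]
  simp only [Complex.ofReal_zero, mul_zero, zero_mul, zero_sub, NNReal.coe_one, Complex.ofReal_one,
    one_mul]
  rw [e3]
  congr 1
  ring

lemma integrable_exp_abs_gauss : Integrable (fun y : ℝ => rexp |y|) (gaussianReal 0 1) := by
  have h1 := (integrable_exp_mul_gaussianReal (μ := 0) (v := 1) 1).add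
    (integrable_exp_mul_gaussianReal (μ := 0) (v := 1) (-1))
  refine h1.mono' (by fun_prop) (Eventually.of_forall fun y => ?_)
  rw [Real.norm_eq_abs, abs_of_pos (exp_pos _)]
  show rexp |y| ≤ rexp (1 * y) + rexp (-1 * y)
  simp only [one_mul, neg_mul]
  rcases abs_cases y with ⟨h, _⟩ | ⟨h, _⟩ <;> rw [h]
  · linarith [exp_pos (-y)]
  · linarith [exp_pos y]

lemma integral_exp_abs_gauss_le : ∫ y, rexp |y| ∂(gaussianReal 0 1) ≤ 2 * rexp (1 / 2) := by
  have hm : ∀ t : ℝ, ∫ y, rexp (t * y) ∂(gaussianReal 0 1) = rexp (t ^ 2 / 2) := by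
    intro t
    have := congrFun (mgf_id_gaussianReal (μ := 0) (v := 1)) t
    simp only [mgf, id] at this
    rw [this]
    simp
  have i1 := integrable_exp_mul_gaussianReal (μ := 0) (v := 1) 1
  have i2 := integrable_exp_mul_gaussianReal (μ := 0) (v := 1) (-1)
  have h1 : ∫ y, rexp |y| ∂(gaussianReal 0 1) ≤
      ∫ y, (rexp (1 * y) + rexp (-1 * y)) ∂(gaussianReal 0 1) := by
    apply integral_mono integrable_exp_abs_gauss (i1.add i2)
    intro y
    show rexp |y| ≤ rexp (1 * y) + rexp (-1 * y)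
    simp only [one_mul, neg_mul]
    rcases abs_cases y with ⟨h, _⟩ | ⟨h, _⟩ <;> rw [h]
    · linarith [exp_pos (-y)]
    · linarith [exp_pos y]
  rw [integral_add i1 i2, hm, hm] at h1
  norm_num at h1
  linarith

lemma integrable_exp_abs_inner {s : E d} (hs : ‖s‖ = 1) :
    Integrable (fun a : E d => rexp |⟪a, s⟫|) (stdGaussian (E d)) := by
  have hm : Measurable (fun a : E d => ⟪a, s⟫) := by fun_prop
  have h := integrable_exp_abs_gauss
  rw [← map_inner_gauss hs] at h
  exact (integrable_map_measure (by fun_prop) hm.aemeasurable).1 h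

lemma integral_exp_abs_inner_le {s : E d} (hs : ‖s‖ = 1) :
    ∫ a : E d, rexp |⟪a, s⟫| ∂(stdGaussian (E d)) ≤ 2 * rexp (1 / 2) := by
  have hm : Measurable (fun a : E d => ⟪a, s⟫) := by fun_prop
  have h := integral_exp_abs_gauss_le
  rw [← map_inner_gauss hs, integral_map hm.aemeasurable (by fun_prop)] at h
  exact h

/-- The size of a cell compared with the size of the labels. -/
lemma floor_abs_le (n : ℕ) (y : ℝ) :
    |((⌊(2 : ℝ) ^ n * y⌋ : ℤ) : ℝ)| * (1 / 2 : ℝ) ^ n ≤ |y| + 1 := by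
  set δ : ℝ := (1 / 2 : ℝ) ^ n with hδ
  have hδ0 : 0 < δ := by positivity
  have hδ1 : δ ≤ 1 := pow_le_one₀ (by norm_num) (by norm_num)
  have hmul : (2 : ℝ) ^ n * δ = 1 := by
    rw [hδ, ← mul_pow]
    norm_num
  set t : ℝ := (2 : ℝ) ^ n * y with ht
  have h1 := Int.floor_le t
  have h2 := Int.lt_floor_add_one t
  have h3 : |((⌊t⌋ : ℤ) : ℝ)| ≤ |t| + 1 := by
    rw [abs_le]
    constructor
    · have := neg_abs_le t
      linarith
    · have := le_abs_self t
      linarith
  have h4 : |t| * δ = |y| := by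
    rw [ht, abs_mul, abs_of_pos (by positivity : (0 : ℝ) < 2 ^ n)]
    calc (2 : ℝ) ^ n * |y| * δ = ((2 : ℝ) ^ n * δ) * |y| := by ring
      _ = |y| := by rw [hmul, one_mul]
  calc |((⌊t⌋ : ℤ) : ℝ)| * δ ≤ (|t| + 1) * δ := mul_le_mul_of_nonneg_right h3 hδ0.le
    _ = |y| + δ := by rw [add_mul, h4, one_mul]
    _ ≤ |y| + 1 := by linarith

/-- Most rows give a moderate cell. -/
lemma partA_small {u : ℕ} (n : ℕ) {s : E d} (hs : ‖s‖ = 1) :
    (rowsM d (4 * u)).real {A | cell n A s ∉ inner' n (4 * u)} ≤ rexp (-(2 * u : ℝ)) := by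
  set w := 4 * u with hw
  set F : Rows d w → ℝ := fun A => ∏ l, rexp |⟪A l, s⟫| with hF
  have hFint : Integrable F (rowsM d w) := by
    unfold rowsM
    exact Integrable.fintype_prod (fun _ => integrable_exp_abs_inner hs)
  have hF0 : 0 ≤ᵐ[rowsM d w] F := Eventually.of_forall fun A => by
    exact Finset.prod_nonneg fun l _ => (exp_pos _).le
  have hFval : ∫ A, F A ∂(rowsM d w) ≤ (2 * rexp (1 / 2)) ^ w := by
    have e := integral_fintype_prod_eq_prod (μ := fun _ : Fin w => stdGaussian (E d))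
      (f := fun _ a => rexp |⟪a, s⟫|)
    have e2 : ∫ A, F A ∂(rowsM d w) = ∏ _l : Fin w, ∫ a : E d, rexp |⟪a, s⟫| ∂(stdGaussian (E d)) :=
      e
    rw [e2, Finset.prod_const, Finset.card_univ, Fintype.card_fin]
    exact pow_le_pow_left₀ (integral_nonneg fun a => (exp_pos _).le)
      (integral_exp_abs_inner_le hs) w
  have hsub : {A : Rows d w | cell n A s ∉ inner' n w} ⊆ {A | rexp (2 * w) ≤ F A} := by
    intro A hA
    have hA' : ¬ (∑ l, (|((cell n A s l : ℤ) : ℝ)| * (1 / 2 : ℝ) ^ n) ≤ 3 * w) := hA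
    push Not at hA'
    have h1 : ∑ l, (|((cell n A s l : ℤ) : ℝ)| * (1 / 2 : ℝ) ^ n) ≤ ∑ l, (|⟪A l, s⟫| + 1) :=
      Finset.sum_le_sum fun l _ => floor_abs_le n _
    rw [Finset.sum_add_distrib] at h1
    simp only [Finset.sum_const, Finset.card_univ, Fintype.card_fin, nsmul_eq_mul, mul_one] at h1
    have h2 : (2 * w : ℝ) ≤ ∑ l, |⟪A l, s⟫| := by linarith
    show rexp (2 * w) ≤ ∏ l, rexp |⟪A l, s⟫|
    rw [← Real.exp_sum]
    exact exp_le_exp.2 h2
  have hM := mul_meas_ge_le_integral_of_nonneg hF0 hFint (rexp (2 * w))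
  have hmeas : (rowsM d w).real {A | cell n A s ∉ inner' n w} ≤
      (rowsM d w).real {A | rexp (2 * w) ≤ F A} := measureReal_mono hsub
  have hpos : 0 < rexp (2 * w) := exp_pos _
  have h3 : (rowsM d w).real {A | cell n A s ∉ inner' n w} ≤
      (2 * rexp (1 / 2)) ^ w * rexp (-(2 * w)) := by
    rw [exp_neg, ← div_eq_mul_inv, le_div_iff₀ hpos]
    have := mul_le_mul_of_nonneg_left hmeas hpos.le
    nlinarith [hM.trans hFval]
  refine h3.trans ?_
  have hwu : (w : ℝ) = 4 * u := by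
    rw [hw]
    push_cast
    ring
  have he : (16 : ℝ) ≤ rexp 4 := by
    have h1 : (2.7 : ℝ) ≤ rexp 1 := by
      have := Real.exp_one_gt_d9
      linarith
    have h2 : rexp 4 = rexp 1 ^ 4 := by
      rw [← Real.exp_nat_mul]
      norm_num
    rw [h2]
    calc (16 : ℝ) ≤ 2.7 ^ 4 := by norm_num
      _ ≤ rexp 1 ^ 4 := pow_le_pow_left₀ (by norm_num) h1 4
  have e1 : (2 * rexp (1 / 2)) ^ w * rexp (-(2 * w)) =
      (16 * rexp (-6)) ^ u := by
    rw [hw, pow_mul]
    have e2 : (2 * rexp (1 / 2)) ^ 4 = 16 * rexp 2 := by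
      rw [mul_pow, ← Real.exp_nat_mul]
      norm_num
    rw [e2, mul_pow]
    have e3 : rexp (-(2 * ((4 * u : ℕ) : ℝ))) = rexp (-8) ^ u := by
      rw [← Real.exp_nat_mul]
      congr 1
      push_cast
      ring
    have e4 : rexp 2 ^ u * rexp (-8) ^ u = rexp (-6) ^ u := by
      rw [← mul_pow, ← Real.exp_add]
      norm_num
    rw [e3, mul_pow 16 (rexp (-6)) u, mul_assoc, e4]
  rw [e1]
  have e5 : rexp (-(2 * u : ℝ)) = rexp (-2) ^ u := by
    rw [← Real.exp_nat_mul]
    congr 1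
    ring
  rw [e5]
  apply pow_le_pow_left₀ (by positivity)
  have e6 : rexp (-2) = rexp 4 * rexp (-6) := by
    rw [← Real.exp_add]
    norm_num
  rw [e6]
  exact mul_le_mul_of_nonneg_right he (exp_pos _).le

end partA

section partB

/-- The rows are rotation invariant. -/
lemma rowsM_map_isometry (R : E d ≃ₗᵢ[ℝ] E d) (w : ℕ) :
    (rowsM d w).map (fun A l => R (A l)) = rowsM d w := by
  unfold rowsM
  exact (measurePreserving_pi (fun _ : Fin w => stdGaussian (E d))
    (fun _ : Fin w => stdGaussian (E d))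
    (fun _ => ⟨R.continuous.measurable, stdGaussian_map R⟩)).map_eq

lemma cell_map (R : E d ≃ₗᵢ[ℝ] E d) (n w : ℕ) (A : Rows d w) (s : E d) :
    cell n (fun l => R.symm (A l)) s = cell n A (R s) := by
  ext l
  simp only [cell]
  have : ⟪R.symm (A l), s⟫ = ⟪A l, R s⟫ := by
    rw [← R.inner_map_map (R.symm (A l)) s, R.apply_symm_apply]
  rw [this]

/-- The event that the cell is moderate but light. -/
def lightSet (n d w : ℕ) (τ : ℝ) : Set (Rows d w × E d) :=
  {q | cell n q.1 q.2 ∈ inner' n w ∧ (sphereM d).real {s' | cell n q.1 s' = cell n q.1 q.2} < τ}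

lemma measurableSet_lightSet (n d w : ℕ) (τ : ℝ) : MeasurableSet (lightSet n d w τ) := by
  have h0 : Measurable (fun q : Rows d w × E d => (q.1, Function.uncurry (cell n) q)) :=
    measurable_fst.prodMk (measurable_cell n d w)
  have h1 : MeasurableSet {p : Rows d w × (Fin w → ℤ) | p.2 ∈ inner' n w} :=
    measurable_snd (MeasurableSet.of_discrete (s := inner' n w))
  have h2 : MeasurableSet {p : Rows d w × (Fin w → ℤ) |
      (sphereM d).real {s | cell n p.1 s = p.2} < τ} :=
    measurableSet_lt (measurable_mass n d w) measurable_const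
  exact h0 (h1.inter h2)

lemma measurable_cell_section (n w : ℕ) (A : Rows d w) :
    Measurable (cell n A : E d → (Fin w → ℤ)) :=
  (measurable_cell n d w).of_uncurry_left

lemma mass_rot (n w : ℕ) (R : E d ≃ₗᵢ[ℝ] E d) (A : Rows d w) (i : Fin w → ℤ) :
    (sphereM d) {s' | cell n A (R s') = i} = (sphereM d) {s' | cell n A s' = i} := by
  have hR : Measurable R := R.continuous.measurable
  have hS : MeasurableSet {s' : E d | cell n A s' = i} :=
    measurable_cell_section n w A (MeasurableSet.of_discrete (s := {i}))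
  calc (sphereM d) {s' | cell n A (R s') = i}
      = (sphereM d) (R ⁻¹' {s' : E d | cell n A s' = i}) := rfl
    _ = ((sphereM d).map R) {s' : E d | cell n A s' = i} := (Measure.map_apply hR hS).symm
    _ = (sphereM d) {s' | cell n A s' = i} := by rw [sphereM_map_isometry R]

/-- The law of the light event does not depend on the signal. -/
lemma light_invariant (n w : ℕ) (τ : ℝ) (R : E d ≃ₗᵢ[ℝ] E d) (s : E d) :
    rowsM d w {A | (A, R s) ∈ lightSet n d w τ} = rowsM d w {A | (A, s) ∈ lightSet n d w τ} := by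
  have hm : Measurable (fun (A : Rows d w) l => R.symm (A l)) :=
    measurable_pi_lambda _ fun l => R.symm.continuous.measurable.comp (measurable_pi_apply l)
  have hsec : MeasurableSet {A : Rows d w | (A, s) ∈ lightSet n d w τ} :=
    measurable_prodMk_right (measurableSet_lightSet n d w τ)
  have hset : {A : Rows d w | (A, R s) ∈ lightSet n d w τ} =
      (fun (A : Rows d w) l => R.symm (A l)) ⁻¹' {A | (A, s) ∈ lightSet n d w τ} := by
    ext A
    have hmass : ∀ i : Fin w → ℤ, (sphereM d).real {s' | cell n (fun l => R.symm (A l)) s' = i} =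
        (sphereM d).real {s' | cell n A s' = i} := by
      intro i
      simp_rw [cell_map]
      unfold Measure.real
      rw [mass_rot]
    show (cell n A (R s) ∈ inner' n w ∧
        (sphereM d).real {s' | cell n A s' = cell n A (R s)} < τ) ↔
      (cell n (fun l => R.symm (A l)) s ∈ inner' n w ∧
        (sphereM d).real {s' | cell n (fun l => R.symm (A l)) s' =
          cell n (fun l => R.symm (A l)) s} < τ)
    rw [hmass, cell_map]
  have h3 := rowsM_map_isometry R.symm w (d := d)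
  rw [hset]
  calc rowsM d w ((fun (A : Rows d w) l => R.symm (A l)) ⁻¹' {A | (A, s) ∈ lightSet n d w τ})
      = ((rowsM d w).map (fun A l => R.symm (A l))) {A | (A, s) ∈ lightSet n d w τ} :=
        (Measure.map_apply hm hsec).symm
    _ = rowsM d w {A | (A, s) ∈ lightSet n d w τ} := by rw [h3]

/-- The one dimensional sum. -/
lemma sum_g_le {δ : ℝ} (hδ0 : 0 < δ) (hδ1 : δ ≤ 1) (K : ℕ) :
    ∑ k ∈ Finset.Icc (-(K : ℤ)) K, δ * rexp (-(δ * |(k : ℝ)|)) ≤ 4 := by
  classical
  set g : ℤ → ℝ := fun k => δ * rexp (-(δ * |(k : ℝ)|)) with hg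
  have hg0 : ∀ k, 0 ≤ g k := fun k => by
    simp only [hg]
    positivity
  set r : ℝ := rexp (-δ) with hr
  have hr0 : 0 < r := exp_pos _
  have hr1 : δ / 2 ≤ 1 - r := by
    have h1 : δ + 1 ≤ rexp δ := Real.add_one_le_exp δ
    have h2 : r * rexp δ = 1 := by
      rw [hr, ← Real.exp_add]
      simp
    have h3 : r * (δ + 1) ≤ 1 :=
      (mul_le_mul_of_nonneg_left h1 hr0.le).trans_eq h2
    nlinarith
  have hgeom : δ * ∑ j ∈ Finset.range (K + 1), r ^ j ≤ 2 := by
    have h1 := mul_neg_geom_sum r (K + 1)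
    have h2 : 0 ≤ ∑ j ∈ Finset.range (K + 1), r ^ j :=
      Finset.sum_nonneg fun j _ => by positivity
    have h3 : 0 ≤ r ^ (K + 1) := by positivity
    nlinarith
  have hpos : ∀ j : ℕ, g (j : ℤ) = δ * r ^ j := by
    intro j
    simp only [hg, hr]
    rw [← Real.exp_nat_mul]
    congr 2
    push_cast
    rw [abs_of_nonneg (Nat.cast_nonneg j)]
    ring
  have hneg : ∀ j : ℕ, g (-(j : ℤ)) = δ * r ^ j := by
    intro j
    simp only [hg, hr]
    rw [← Real.exp_nat_mul]
    congr 2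
    push_cast
    rw [abs_neg, abs_of_nonneg (Nat.cast_nonneg j)]
    ring
  set A := (Finset.range (K + 1)).image (fun j : ℕ => (j : ℤ)) with hA
  set B := (Finset.range (K + 1)).image (fun j : ℕ => -(j : ℤ)) with hB
  have hsub : Finset.Icc (-(K : ℤ)) K ⊆ A ∪ B := by
    intro k hk
    obtain ⟨h1, h2⟩ := Finset.mem_Icc.1 hk
    rcases le_total 0 k with h | h
    · apply Finset.mem_union_left
      refine Finset.mem_image.2 ⟨k.toNat, Finset.mem_range.2 (by omega), by omega⟩
    · apply Finset.mem_union_right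
      refine Finset.mem_image.2 ⟨(-k).toNat, Finset.mem_range.2 (by omega), by omega⟩
  have h1 : ∑ k ∈ Finset.Icc (-(K : ℤ)) K, g k ≤ ∑ k ∈ A ∪ B, g k :=
    Finset.sum_le_sum_of_subset_of_nonneg hsub fun k _ _ => hg0 k
  have h2 : ∑ k ∈ A ∪ B, g k ≤ ∑ k ∈ A, g k + ∑ k ∈ B, g k := by
    have := Finset.sum_union_inter (s₁ := A) (s₂ := B) (f := g)
    have h3 : 0 ≤ ∑ k ∈ A ∩ B, g k := Finset.sum_nonneg fun k _ => hg0 k
    linarith
  have h3 : ∑ k ∈ A, g k = δ * ∑ j ∈ Finset.range (K + 1), r ^ j := by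
    rw [hA, Finset.sum_image (fun a _ b _ h => by exact_mod_cast h), Finset.mul_sum]
    exact Finset.sum_congr rfl fun j _ => hpos j
  have h4 : ∑ k ∈ B, g k = δ * ∑ j ∈ Finset.range (K + 1), r ^ j := by
    rw [hB, Finset.sum_image (fun a _ b _ h => by
      have h' : (a : ℤ) = b := by simpa using h
      exact_mod_cast h'), Finset.mul_sum]
    exact Finset.sum_congr rfl fun j _ => hneg j
  rw [h3, h4] at h2
  linarith

/-- The number of moderate cells. -/
lemma exists_cells (n w : ℕ) : ∃ I : Finset (Fin w → ℤ), (∀ i ∈ inner' n w, i ∈ I) ∧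
    (I.card : ℝ) * (((1 / 2 : ℝ) ^ n) ^ w * rexp (-(3 * w : ℝ))) ≤ 4 ^ w := by
  classical
  set δ : ℝ := (1 / 2 : ℝ) ^ n with hδ
  have hδ0 : 0 < δ := by positivity
  have hδ1 : δ ≤ 1 := pow_le_one₀ (by norm_num) (by norm_num)
  set K : ℕ := ⌈3 * (w : ℝ) / δ⌉₊ with hK
  set box : Finset (Fin w → ℤ) := Fintype.piFinset fun _ => Finset.Icc (-(K : ℤ)) K with hbox
  set I : Finset (Fin w → ℤ) := box.filter fun i => i ∈ inner' n w with hI
  set g : ℤ → ℝ := fun k => δ * rexp (-(δ * |(k : ℝ)|)) with hg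
  have hg0 : ∀ k, 0 ≤ g k := fun k => by
    simp only [hg]
    positivity
  have hmem : ∀ i ∈ inner' n w, i ∈ box := by
    intro i hi
    have hi' : ∑ l, (|(i l : ℝ)| * δ) ≤ 3 * w := hi
    apply Fintype.mem_piFinset.2
    intro l
    have h1 : |(i l : ℝ)| * δ ≤ 3 * w :=
      (Finset.single_le_sum (f := fun l => |(i l : ℝ)| * δ) (fun m _ => by positivity)
        (Finset.mem_univ l)).trans hi'
    have h2 : |(i l : ℝ)| ≤ K := by
      have h3 : |(i l : ℝ)| ≤ 3 * (w : ℝ) / δ := by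
        rw [le_div_iff₀ hδ0]
        exact h1
      exact h3.trans (Nat.le_ceil _)
    obtain ⟨h4, h5⟩ := abs_le.1 h2
    apply Finset.mem_Icc.2
    constructor
    · have : ((-(K : ℤ) : ℤ) : ℝ) ≤ (i l : ℝ) := by
        push_cast
        exact h4
      exact_mod_cast this
    · exact_mod_cast h5
  refine ⟨I, fun i hi => Finset.mem_filter.2 ⟨hmem i hi, hi⟩, ?_⟩
  have hlow : ∀ i ∈ I, δ ^ w * rexp (-(3 * w : ℝ)) ≤ ∏ l, g (i l) := by
    intro i hi
    have hi' : ∑ l, (|(i l : ℝ)| * δ) ≤ 3 * w := (Finset.mem_filter.1 hi).2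
    have e : ∏ l, g (i l) = δ ^ w * rexp (-∑ l, (δ * |(i l : ℝ)|)) := by
      simp only [hg]
      rw [Finset.prod_mul_distrib, Finset.prod_const, Finset.card_univ, Fintype.card_fin,
        ← Real.exp_sum, Finset.sum_neg_distrib]
    rw [e]
    apply mul_le_mul_of_nonneg_left _ (by positivity)
    apply exp_le_exp.2
    apply neg_le_neg
    calc ∑ l, (δ * |(i l : ℝ)|) = ∑ l, (|(i l : ℝ)| * δ) :=
          Finset.sum_congr rfl fun l _ => mul_comm _ _
      _ ≤ 3 * w := hi'
  calc (I.card : ℝ) * (δ ^ w * rexp (-(3 * w : ℝ)))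
      = ∑ _i ∈ I, (δ ^ w * rexp (-(3 * w : ℝ))) := by
        rw [Finset.sum_const, nsmul_eq_mul]
    _ ≤ ∑ i ∈ I, ∏ l, g (i l) := Finset.sum_le_sum hlow
    _ ≤ ∑ i ∈ box, ∏ l, g (i l) :=
        Finset.sum_le_sum_of_subset_of_nonneg (Finset.filter_subset _ _)
          fun i _ _ => Finset.prod_nonneg fun l _ => hg0 _
    _ = ∏ _l : Fin w, ∑ k ∈ Finset.Icc (-(K : ℤ)) K, g k :=
        (Finset.prod_univ_sum (fun _ => Finset.Icc (-(K : ℤ)) K) (fun _ k => g k)).symm
    _ = (∑ k ∈ Finset.Icc (-(K : ℤ)) K, g k) ^ w := by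
        rw [Finset.prod_const, Finset.card_univ, Fintype.card_fin]
    _ ≤ 4 ^ w := pow_le_pow_left₀ (Finset.sum_nonneg fun k _ => hg0 k) (sum_g_le hδ0 hδ1 K) w

/-- For fixed rows the light part of the sphere is small. -/
lemma section_bound (n w : ℕ) {τ : ℝ} (A : Rows d w) {I : Finset (Fin w → ℤ)}
    (hI : ∀ i ∈ inner' n w, i ∈ I) :
    (sphereM d) {s | (A, s) ∈ lightSet n d w τ} ≤ ENNReal.ofReal ((I.card : ℝ) * τ) := by
  classical
  set I' := I.filter fun i => (sphereM d).real {s' | cell n A s' = i} < τ with hI'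
  have hsub : {s | (A, s) ∈ lightSet n d w τ} ⊆ ⋃ i ∈ I', {s' | cell n A s' = i} := by
    intro s hs
    obtain ⟨h1, h2⟩ := hs
    refine mem_biUnion (Finset.mem_coe.2 (Finset.mem_filter.2 ⟨hI _ h1, h2⟩)) ?_
    rfl
  calc (sphereM d) {s | (A, s) ∈ lightSet n d w τ} ≤ (sphereM d) (⋃ i ∈ I', {s' | cell n A s' = i}) :=
        measure_mono hsub
    _ ≤ ∑ i ∈ I', (sphereM d) {s' | cell n A s' = i} := measure_biUnion_finset_le _ _
    _ ≤ ∑ _i ∈ I', ENNReal.ofReal τ := by
        apply Finset.sum_le_sum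
        intro i hi
        have h1 := (Finset.mem_filter.1 hi).2
        rw [← ofReal_measureReal (μ := sphereM d)]
        exact ENNReal.ofReal_le_ofReal h1.le
    _ = (I'.card : ℝ≥0∞) * ENNReal.ofReal τ := by
        rw [Finset.sum_const, nsmul_eq_mul]
    _ ≤ (I.card : ℝ≥0∞) * ENNReal.ofReal τ := by
        gcongr
        exact Finset.filter_subset _ _
    _ = ENNReal.ofReal ((I.card : ℝ) * τ) := by
        rw [ENNReal.ofReal_mul (Nat.cast_nonneg _), ENNReal.ofReal_natCast]

/-- The light event is rare, for every signal on the sphere. -/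
lemma light_small (hd : 0 < d) (n w : ℕ) {τ : ℝ} {I : Finset (Fin w → ℤ)}
    (hI : ∀ i ∈ inner' n w, i ∈ I) {s : E d} (hs : ‖s‖ = 1) :
    (rowsM d w) {A | (A, s) ∈ lightSet n d w τ} ≤ ENNReal.ofReal ((I.card : ℝ) * τ) := by
  have hL := measurableSet_lightSet n d w τ
  have h1 : ∫⁻ s', (rowsM d w) {A | (A, s') ∈ lightSet n d w τ} ∂(sphereM d) =
      ∫⁻ A, (sphereM d) {s' | (A, s') ∈ lightSet n d w τ} ∂(rowsM d w) := by
    have e1 := Measure.prod_apply (μ := rowsM d w) (ν := sphereM d) hL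
    have e2 := Measure.prod_apply_symm (μ := rowsM d w) (ν := sphereM d) hL
    rw [e1] at e2
    exact e2.symm
  have h2 : ∫⁻ s', (rowsM d w) {A | (A, s') ∈ lightSet n d w τ} ∂(sphereM d) =
      (rowsM d w) {A | (A, s) ∈ lightSet n d w τ} := by
    have h3 : ∀ᵐ s' ∂(sphereM d), (rowsM d w) {A | (A, s') ∈ lightSet n d w τ} =
        (rowsM d w) {A | (A, s) ∈ lightSet n d w τ} := by
      filter_upwards [sphereM_ae_unit hd] with s' hs'
      have hn : ‖s‖ = ‖s'‖ := by rw [hs, hs']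
      have hR := Submodule.reflection_sub hn
      have h4 := light_invariant n w τ ((ℝ ∙ (s - s'))ᗮ.reflection) s (d := d)
      rw [hR] at h4
      exact h4
    rw [lintegral_congr_ae h3, lintegral_const, measure_univ, mul_one]
  rw [← h2, h1]
  calc ∫⁻ A, (sphereM d) {s' | (A, s') ∈ lightSet n d w τ} ∂(rowsM d w)
      ≤ ∫⁻ _A, ENNReal.ofReal ((I.card : ℝ) * τ) ∂(rowsM d w) :=
        lintegral_mono fun A => section_bound n w A hI
    _ = ENNReal.ofReal ((I.card : ℝ) * τ) := by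
        rw [lintegral_const, measure_univ, mul_one]

end partB

/-- The probability of a bad cell is small, for every signal on the sphere. -/
theorem bad_small {u : ℕ} (hu : 8 * u ≤ d) (hu1 : 1 ≤ u) (n : ℕ) {s : E d} (hs : ‖s‖ = 1) :
    (rowsM d (4 * u)).real {A | (A, cell n A s) ∉ goodSet n d u} ≤ 2 * rexp (-(2 * u : ℝ)) := by
  have hd : 0 < d := by omega
  obtain ⟨I, hI, hcard⟩ := exists_cells n (4 * u)
  set δ : ℝ := (1 / 2 : ℝ) ^ n with hδ
  have hδ0 : 0 < δ := by positivity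
  have hτ : 0 ≤ tauC n u := by
    unfold tauC
    positivity
  have hsub : {A : Rows d (4 * u) | (A, cell n A s) ∉ goodSet n d u} ⊆
      {A | cell n A s ∉ inner' n (4 * u)} ∪ {A | (A, s) ∈ lightSet n d (4 * u) (tauC n u)} := by
    intro A hA
    by_cases h1 : cell n A s ∈ inner' n (4 * u)
    · right
      refine ⟨h1, ?_⟩
      by_contra h2
      exact hA ⟨h1, not_lt.1 h2⟩
    · left
      exact h1
  have hA := partA_small (u := u) n hs
  have hB := light_small hd n (4 * u) (τ := tauC n u) hI hs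
  have hB2 : (rowsM d (4 * u)).real {A | (A, s) ∈ lightSet n d (4 * u) (tauC n u)} ≤
      (I.card : ℝ) * tauC n u := by
    have := ENNReal.toReal_mono ENNReal.ofReal_ne_top hB
    rwa [ENNReal.toReal_ofReal (by positivity)] at this
  have hnum : (I.card : ℝ) * tauC n u ≤ rexp (-(2 * u : ℝ)) := by
    have e1 : tauC n u = (δ ^ (4 * u) * rexp (-(3 * ((4 * u : ℕ) : ℝ)))) * rexp (-(8 * u : ℝ)) := by
      unfold tauC
      rw [← hδ]
      have : rexp (-(20 * u : ℝ)) = rexp (-(3 * ((4 * u : ℕ) : ℝ))) * rexp (-(8 * u : ℝ)) := by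
        rw [← Real.exp_add]
        congr 1
        push_cast
        ring
      rw [this]
      ring
    rw [e1, ← mul_assoc]
    have h2 : (I.card : ℝ) * (δ ^ (4 * u) * rexp (-(3 * ((4 * u : ℕ) : ℝ)))) * rexp (-(8 * u : ℝ)) ≤
        4 ^ (4 * u) * rexp (-(8 * u : ℝ)) :=
      mul_le_mul_of_nonneg_right hcard (exp_pos _).le
    refine h2.trans ?_
    have he : (256 : ℝ) ≤ rexp 6 := by
      have h1 : (2.7 : ℝ) ≤ rexp 1 := by
        have := Real.exp_one_gt_d9
        linarith
      have h2 : rexp 6 = rexp 1 ^ 6 := by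
        rw [← Real.exp_nat_mul]
        norm_num
      rw [h2]
      calc (256 : ℝ) ≤ 2.7 ^ 6 := by norm_num
        _ ≤ rexp 1 ^ 6 := pow_le_pow_left₀ (by norm_num) h1 6
    have e2 : (4 : ℝ) ^ (4 * u) * rexp (-(8 * u : ℝ)) = (256 * rexp (-8)) ^ u := by
      rw [pow_mul, mul_pow]
      have : rexp (-(8 * u : ℝ)) = rexp (-8) ^ u := by
        rw [← Real.exp_nat_mul]
        congr 1
        ring
      rw [this]
      norm_num
    have e3 : rexp (-(2 * u : ℝ)) = rexp (-2) ^ u := by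
      rw [← Real.exp_nat_mul]
      congr 1
      ring
    rw [e2, e3]
    apply pow_le_pow_left₀ (by positivity)
    have e4 : rexp (-2) = rexp 6 * rexp (-8) := by
      rw [← Real.exp_add]
      norm_num
    rw [e4]
    exact mul_le_mul_of_nonneg_right he (exp_pos _).le
  calc (rowsM d (4 * u)).real {A | (A, cell n A s) ∉ goodSet n d u}
      ≤ (rowsM d (4 * u)).real ({A | cell n A s ∉ inner' n (4 * u)} ∪
          {A | (A, s) ∈ lightSet n d (4 * u) (tauC n u)}) := measureReal_mono hsub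
    _ ≤ _ := measureReal_union_le _ _
    _ ≤ rexp (-(2 * u : ℝ)) + rexp (-(2 * u : ℝ)) := add_le_add hA (hB2.trans hnum)
    _ = 2 * rexp (-(2 * u : ℝ)) := by ring

/-- The entropy of a density is nonnegative. -/
lemma integral_mul_log_nonneg {f : E d → ℝ} (hf : BddNN f) (hf1 : ∫ s, f s ∂(sphereM d) = 1) :
    0 ≤ ∫ s, f s * log (f s) ∂(sphereM d) := by
  by_cases hi : Integrable (fun s => f s * log (f s)) (sphereM d)
  · have hfi : Integrable f (sphereM d) := by
      by_contra hc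
      rw [integral_undef hc] at hf1
      exact zero_ne_one hf1
    have h1 : ∫ s, (f s - 1) ∂(sphereM d) ≤ ∫ s, f s * log (f s) ∂(sphereM d) := by
      apply integral_mono (hfi.sub (integrable_const 1)) hi
      intro s
      have h0 := hf.nonneg s
      rcases h0.eq_or_lt with h | h
      · show f s - 1 ≤ f s * log (f s)
        rw [← h]
        simp
      · show f s - 1 ≤ f s * log (f s)
        have h2 := Real.one_sub_inv_le_log_of_pos h
        have h3 := mul_le_mul_of_nonneg_left h2 h.le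
        have e : f s * (1 - (f s)⁻¹) = f s - 1 := by
          field_simp
        rw [e] at h3
        exact h3
    rw [integral_sub hfi (integrable_const 1), hf1] at h1
    simpa using h1
  · rw [integral_undef hi]

lemma arith_Mm (u : ℕ) (δ : ℝ) :
    (2 : ℝ) ^ (2 * u * u) * δ ^ (4 * u * u) =
      (rexp (20 * (u : ℝ) * u) * 2 ^ (2 * u * u)) * (rexp (-(20 * u : ℝ)) * δ ^ (4 * u)) ^ u := by
  rw [mul_pow, ← pow_mul, ← Real.exp_nat_mul]
  have e : rexp (20 * (u : ℝ) * u) * rexp ((u : ℝ) * -(20 * (u : ℝ))) = 1 := by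
    rw [← Real.exp_add]
    have : 20 * (u : ℝ) * u + (u : ℝ) * -(20 * (u : ℝ)) = 0 := by ring
    rw [this, Real.exp_zero]
  calc (2 : ℝ) ^ (2 * u * u) * δ ^ (4 * u * u)
      = (rexp (20 * (u : ℝ) * u) * rexp ((u : ℝ) * -(20 * (u : ℝ)))) *
          ((2 : ℝ) ^ (2 * u * u) * δ ^ (4 * u * u)) := by rw [e, one_mul]
    _ = _ := by ring

/-- The gain inequality for dyadic cells. -/
theorem cell_gain {V : Type*} [Fintype V] {u : ℕ} (hu : 8 * u ≤ d) (hu1 : 1 ≤ u) (n : ℕ)
    (φ : V → Rows d (4 * u) → (Fin (4 * u) → ℤ) → ℝ)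
    (hφm : ∀ v, Measurable (Function.uncurry (φ v)))
    (hφ0 : ∀ v A i, 0 ≤ φ v A i) (hφ1 : ∀ A i, ∑ v, φ v A i = 1)
    (f : E d → ℝ) (hf : BddNN f) (hf1 : ∫ s, f s ∂(sphereM d) = 1) :
    ∑ v, Hent (sphereM d) (fun s => f s * ∫ A, φ v A (cell n A s) ∂(rowsM d (4 * u))) ≤
      4 * (∫ s, f s * log (f s) ∂(sphereM d)) + (4 / (u : ℝ)) * log (Fintype.card V) +
        66 * u + 8 := by
  have hd : 0 < d := by omega
  have hu0 : (1 : ℝ) ≤ u := by exact_mod_cast hu1
  set β : ℝ := 2 * rexp (-(2 * u : ℝ)) with hβ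
  set Mm : ℝ := rexp (20 * (u : ℝ) * u) * 2 ^ (2 * u * u) with hMm
  have hβ0 : 0 ≤ β := by positivity
  have hβu : β ≤ 1 / (u : ℝ) := by
    rw [le_div_iff₀ (by linarith)]
    have h1 : (2 * u : ℝ) + 1 ≤ rexp (2 * u) := Real.add_one_le_exp _
    have h2 : rexp (-(2 * u : ℝ)) * rexp (2 * u) = 1 := by
      rw [← Real.exp_add]
      simp
    have h3 : 0 < rexp (-(2 * u : ℝ)) := exp_pos _
    simp only [hβ]
    nlinarith
  have hβ1 : β ≤ 1 := hβu.trans (by
    rw [div_le_one (by linarith)]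
    exact hu0)
  have hMm1 : 1 ≤ Mm := by
    have h1 : 1 ≤ rexp (20 * (u : ℝ) * u) := Real.one_le_exp (by positivity)
    have h2 : (1 : ℝ) ≤ 2 ^ (2 * u * u) := one_le_pow₀ (by norm_num)
    simpa using mul_le_mul h1 h2 (by norm_num) (by positivity)
  have hτ : 0 < tauC n u := by
    unfold tauC
    positivity
  have hW : (∫⁻ s : Fin (u + 1) → E d, (collide (rowsM d (4 * u)) (cell n) s) ^ (3 / 2 : ℝ)
      ∂(Measure.pi fun _ => sphereM d)) ^ (2 / 3 : ℝ) ≤ ENNReal.ofReal (Mm * (tauC n u) ^ u) := by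
    refine (collide_moment hu hu1 n).trans (le_of_eq ?_)
    congr 1
    exact arith_Mm u _
  have hg := gain (rowsM d (4 * u)) (sphereM d) (cell n) (measurable_cell n d (4 * u)) φ hφm hφ0 hφ1
    f hf hf1 (goodSet n d u) (measurableSet_goodSet n d u) hτ
    (fun A i hAi => hAi.2) hβ0 hβ1
    (by
      filter_upwards [sphereM_ae_unit hd] with s hs
      exact bad_small hu hu1 n hs)
    u hMm1 hW
  refine hg.trans ?_
  set X := ∫ s, f s * log (f s) ∂(sphereM d) with hX
  have hX0 : 0 ≤ X := integral_mul_log_nonneg hf hf1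
  set L := log (Fintype.card V) with hL
  have hL0 : 0 ≤ L := Real.log_natCast_nonneg _
  have hUpos : (0 : ℝ) < u := by linarith
  have h1 : (3 + β) * X ≤ 4 * X := by nlinarith
  have h2 : (3 / ((u : ℝ) + 1) + β) * L ≤ (4 / (u : ℝ)) * L := by
    apply mul_le_mul_of_nonneg_right _ hL0
    have h3 : 3 / ((u : ℝ) + 1) ≤ 3 / (u : ℝ) :=
      div_le_div_of_nonneg_left (by norm_num) hUpos (by linarith)
    have e : 4 / (u : ℝ) = 3 / (u : ℝ) + 1 / (u : ℝ) := by ring
    rw [e]
    linarith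
  have h3 : (3 / ((u : ℝ) + 1)) * log Mm ≤ 66 * u := by
    have hlog : log Mm = 20 * (u : ℝ) * u + (2 * u * u : ℕ) * log 2 := by
      simp only [hMm]
      rw [Real.log_mul (exp_pos _).ne' (by positivity), Real.log_exp, Real.log_pow]
    have hl2 : log 2 < 0.6931471808 := Real.log_two_lt_d9
    have hl0 : 0 ≤ log 2 := (Real.log_pos (by norm_num)).le
    have hbound : log Mm ≤ 22 * ((u : ℝ) * u) := by
      rw [hlog]
      push_cast
      nlinarith [mul_pos hUpos hUpos]
    have hlm0 : 0 ≤ log Mm := Real.log_nonneg hMm1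
    have h4 : (3 / ((u : ℝ) + 1)) * log Mm ≤ (3 / (u : ℝ)) * (22 * ((u : ℝ) * u)) := by
      apply mul_le_mul _ hbound hlm0 (by positivity)
      exact div_le_div_of_nonneg_left (by norm_num) hUpos (by linarith)
    have e : (3 / (u : ℝ)) * (22 * ((u : ℝ) * u)) = 66 * u := by
      field_simp
      ring
    rw [e] at h4
    exact h4
  linarith

end Vale.Agent.P309
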