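import Vale.Agent.P309.Defs
import Vale.Agent.P226h15.Moments

/-!
The sphere measure: invariance and negative moments of the distance to a subspace.
-/

open MeasureTheory ProbabilityTheory Real Set Filter Topology
open scoped RealInnerProductSpace ENNReal

namespace Vale.Agent.P309

open Vale.Agent.P226h15

variable {d : ℕ}

lemma measurable_normalize : Measurable (fun g : E d => (‖g‖⁻¹ : ℝ) • g) :=
  (measurable_norm.inv).smul measurable_id

instance sphereM_prob (d : ℕ) : IsProbabilityMeasure (sphereM d) := by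
  unfold sphereM
  exact Measure.isProbabilityMeasure_map measurable_normalize.aemeasurable

section general

variable {Y : Type*} [NormedAddCommGroup Y] [InnerProductSpace ℝ Y] [FiniteDimensional ℝ Y]
  [MeasurableSpace Y] [BorelSpace Y]

lemma stdGaussian_singleton_zero [Nontrivial Y] : stdGaussian Y {0} = 0 := by
  have h : (volume : Measure Y) {0} = 0 := measure_singleton 0
  rw [stdGaussian_eq_withDensity]
  exact withDensity_absolutelyContinuous _ _ h

lemma ae_ne_zero [Nontrivial Y] : ∀ᵐ y ∂(stdGaussian Y), y ≠ 0 := by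
  rw [ae_iff]
  simpa using stdGaussian_singleton_zero (Y := Y)

/-- The radial formula for the Gaussian measure. -/
lemma lintegral_radial [Nontrivial Y] {G : ℝ → ℝ≥0∞} (hG : Measurable G) :
    ∫⁻ y, G ‖y‖ ∂(stdGaussian Y) =
      (volume : Measure Y).toSphere univ *
        ∫⁻ r in Ioi (0 : ℝ), ENNReal.ofReal (r ^ (Module.finrank ℝ Y - 1)) *
          (ENNReal.ofReal (gden Y r) * G r) := by
  have hcont : Continuous (fun y : Y => gden Y ‖y‖) := continuous_gden.comp continuous_norm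
  have hρm : Measurable (fun y : Y => ENNReal.ofReal (gden Y ‖y‖)) :=
    hcont.measurable.ennreal_ofReal
  have hGm : Measurable (fun y : Y => G ‖y‖) := hG.comp measurable_norm
  rw [stdGaussian_eq_withDensity, lintegral_withDensity_eq_lintegral_mul _ hρm hGm]
  have hm2 : Measurable ((fun y : Y => ENNReal.ofReal (gden Y ‖y‖)) * fun y : Y => G ‖y‖) :=
    hρm.mul hGm
  rw [lintegral_polar hm2]
  have h5 : ∀ (ω : Metric.sphere (0 : Y) 1) (r : Ioi (0 : ℝ)),
      ((fun y : Y => ENNReal.ofReal (gden Y ‖y‖)) * fun y : Y => G ‖y‖) ((r : ℝ) • (ω : Y)) =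
      ENNReal.ofReal (gden Y (r : ℝ)) * G (r : ℝ) := by
    intro ω r
    have hr : (0 : ℝ) < r := r.2
    have hn : ‖(r : ℝ) • (ω : Y)‖ = r := by
      rw [norm_smul, norm_eq_of_mem_sphere ω, mul_one, Real.norm_eq_abs, abs_of_pos hr]
    simp only [Pi.mul_apply, hn]
  simp_rw [h5]
  rw [lintegral_const, mul_comm]
  congr 1
  rw [Measure.volumeIoiPow]
  have hbm : Measurable (fun r : Ioi (0 : ℝ) => ENNReal.ofReal (gden Y (r : ℝ)) * G (r : ℝ)) :=
    (continuous_gden.measurable.comp measurable_subtype_coe).ennreal_ofReal.mul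
      (hG.comp measurable_subtype_coe)
  have hρ2 : Measurable (fun r : Ioi (0 : ℝ) => ENNReal.ofReal ((r : ℝ) ^ (Module.finrank ℝ Y - 1))) :=
    ((measurable_subtype_coe).pow_const _).ennreal_ofReal
  rw [lintegral_withDensity_eq_lintegral_mul _ hρ2 hbm]
  have := lintegral_subtype_comap (μ := (volume : Measure ℝ)) (s := Ioi (0 : ℝ)) measurableSet_Ioi
    (fun r : ℝ => ENNReal.ofReal (r ^ (Module.finrank ℝ Y - 1)) *
      (ENNReal.ofReal (gden Y r) * G r))
  rw [← this]
  rfl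

/-- A negative moment of the norm, in terms of the radial integrals. -/
lemma negM_aux [Nontrivial Y] {h : ℕ} (hh : 2 * h < Module.finrank ℝ Y) :
    ∫⁻ y, (ENNReal.ofReal ‖y‖)⁻¹ ^ (2 * h) ∂(stdGaussian Y) =
      ((volume : Measure Y).toSphere univ * ENNReal.ofReal (gc Y)⁻¹) *
        ENNReal.ofReal (TT (Module.finrank ℝ Y - 1 - 2 * h)) := by
  have hGm : Measurable (fun r : ℝ => (ENNReal.ofReal r)⁻¹ ^ (2 * h)) :=
    ((ENNReal.measurable_ofReal).inv).pow_const _
  rw [lintegral_radial hGm, mul_assoc]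
  congr 1
  set D := Module.finrank ℝ Y with hD
  have hgc : 0 ≤ (gc Y)⁻¹ := (inv_pos.2 gc_pos).le
  have hpt : ∀ r ∈ Ioi (0 : ℝ), ENNReal.ofReal (r ^ (D - 1)) *
      (ENNReal.ofReal (gden Y r) * (ENNReal.ofReal r)⁻¹ ^ (2 * h)) =
      ENNReal.ofReal (gc Y)⁻¹ * ENNReal.ofReal (r ^ (D - 1 - 2 * h) * rexp (-(1 / 2) * r ^ 2)) := by
    intro r hr
    have hr0 : (0 : ℝ) < r := hr
    have e1 : (ENNReal.ofReal r)⁻¹ ^ (2 * h) = ENNReal.ofReal ((r⁻¹) ^ (2 * h)) := by
      rw [ENNReal.ofReal_pow (inv_pos.2 hr0).le, ENNReal.ofReal_inv_of_pos hr0]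
    rw [e1, ← ENNReal.ofReal_mul (by unfold gden; positivity),
      ← ENNReal.ofReal_mul (by positivity), ← ENNReal.ofReal_mul hgc]
    congr 1
    unfold gden
    have e2 : r ^ (D - 1) = r ^ (D - 1 - 2 * h) * r ^ (2 * h) := by
      rw [← pow_add]
      congr 1
      omega
    rw [e2]
    have e3 : r ^ (2 * h) * r⁻¹ ^ (2 * h) = 1 := by
      rw [← mul_pow, mul_inv_cancel₀ hr0.ne', one_pow]
    calc r ^ (D - 1 - 2 * h) * r ^ (2 * h) * ((gc Y)⁻¹ * rexp (-(1 / 2) * r ^ 2) * r⁻¹ ^ (2 * h))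
        = (gc Y)⁻¹ * (r ^ (D - 1 - 2 * h) * rexp (-(1 / 2) * r ^ 2)) *
            (r ^ (2 * h) * r⁻¹ ^ (2 * h)) := by ring
      _ = _ := by rw [e3, mul_one]
  rw [setLIntegral_congr_fun measurableSet_Ioi hpt, lintegral_const_mul']
  · congr 1
    have hint : IntegrableOn (fun r : ℝ => r ^ (D - 1 - 2 * h) * rexp (-(1 / 2) * r ^ 2))
        (Ioi 0) := by
      by_contra hc
      have h0 := integral_undef hc
      have h1 := TT_pos (D - 1 - 2 * h)
      unfold TT at h1
      rw [h0] at h1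
      exact lt_irrefl _ h1
    have hnn : 0 ≤ᵐ[volume.restrict (Ioi (0 : ℝ))]
        (fun r : ℝ => r ^ (D - 1 - 2 * h) * rexp (-(1 / 2) * r ^ 2)) := by
      filter_upwards [ae_restrict_mem measurableSet_Ioi] with r hr
      have hr0 : (0 : ℝ) < r := hr
      show 0 ≤ r ^ (D - 1 - 2 * h) * rexp (-(1 / 2) * r ^ 2)
      positivity
    unfold TT
    exact (ofReal_integral_eq_lintegral_ofReal hint hnn).symm
  · exact ENNReal.ofReal_ne_top

/-- The negative moments of the norm of a Gaussian vector. -/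
lemma negM_eq [Nontrivial Y] {h : ℕ} (hh : 2 * h < Module.finrank ℝ Y) :
    ∫⁻ y, (ENNReal.ofReal ‖y‖)⁻¹ ^ (2 * h) ∂(stdGaussian Y) =
      ENNReal.ofReal (TT (Module.finrank ℝ Y - 1 - 2 * h) / TT (Module.finrank ℝ Y - 1)) := by
  have hD : 0 < Module.finrank ℝ Y := Module.finrank_pos
  have h0 := negM_aux (Y := Y) (h := 0) (by omega)
  simp only [mul_zero, pow_zero, lintegral_const, measure_univ, mul_one, tsub_zero] at h0
  rw [negM_aux hh]
  set K := (volume : Measure Y).toSphere univ * ENNReal.ofReal (gc Y)⁻¹ with hK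
  have hc : 0 < TT (Module.finrank ℝ Y - 1) := TT_pos _
  have hq : 0 < TT (Module.finrank ℝ Y - 1 - 2 * h) := TT_pos _
  rw [ENNReal.ofReal_div_of_pos hc, div_eq_mul_inv]
  have hK2 : K = (ENNReal.ofReal (TT (Module.finrank ℝ Y - 1)))⁻¹ :=
    ENNReal.eq_inv_of_mul_eq_one_left h0.symm
  rw [hK2, mul_comm]

end general

/-- The ratio of two negative moments. -/
lemma ratio_bound {m D : ℕ} (hmD : m ≤ D) {h : ℕ} (hh : 2 * h < m) :
    (TT (m - 1 - 2 * h) / TT (m - 1)) / (TT (D - 1 - 2 * h) / TT (D - 1)) ≤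
      (((D : ℝ) - 2 * h) / ((m : ℝ) - 2 * h)) ^ h := by
  induction h with
  | zero => simp [div_self (TT_pos _).ne']
  | succ h ih =>
    have hh' : 2 * h < m := by omega
    have ih' := ih hh'
    have hm1 : (2 * (h : ℝ) + 2) < (m : ℝ) := by
      have : 2 * (h + 1) < m := hh
      have h2 : ((2 * (h + 1) : ℕ) : ℝ) < (m : ℝ) := by exact_mod_cast this
      push_cast at h2
      linarith
    have hDm : (m : ℝ) ≤ D := by exact_mod_cast hmD
    have stepT : ∀ M : ℕ, 2 * (h + 1) < M →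
        TT (M - 1 - 2 * h) = ((M : ℝ) - 2 * h - 2) * TT (M - 1 - 2 * (h + 1)) := by
      intro M hM
      have e : M - 1 - 2 * h = (M - 1 - 2 * (h + 1)) + 2 := by omega
      rw [e, TT_add_two]
      have e2 : M - 1 - 2 * h - 2 = M - 1 - 2 * (h + 1) := by omega
      congr 1
      have e3 : (((M - 1 - 2 * (h + 1) : ℕ) : ℝ)) = (M : ℝ) - 1 - 2 * (h + 1) := by
        rw [Nat.cast_sub (by omega), Nat.cast_sub (by omega)]
        push_cast
        ring
      rw [e3]
      ring
    have hsM := stepT m hh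
    have hsD := stepT D (by omega)
    have hp1 : 0 < (m : ℝ) - 2 * h - 2 := by linarith
    have hp2 : 0 < (D : ℝ) - 2 * h - 2 := by linarith
    have hTm := TT_pos (m - 1 - 2 * (h + 1))
    have hTD := TT_pos (D - 1 - 2 * (h + 1))
    have hT1 := TT_pos (m - 1)
    have hT2 := TT_pos (D - 1)
    have e : (TT (m - 1 - 2 * (h + 1)) / TT (m - 1)) / (TT (D - 1 - 2 * (h + 1)) / TT (D - 1)) =
        ((TT (m - 1 - 2 * h) / TT (m - 1)) / (TT (D - 1 - 2 * h) / TT (D - 1))) *
          (((D : ℝ) - 2 * h - 2) / ((m : ℝ) - 2 * h - 2)) := by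
      rw [hsM, hsD]
      field_simp
    rw [e]
    have hq : ((D : ℝ) - 2 * h) / ((m : ℝ) - 2 * h) ≤
        ((D : ℝ) - 2 * h - 2) / ((m : ℝ) - 2 * h - 2) := by
      rw [div_le_div_iff₀ (by linarith) hp1]
      nlinarith
    have hq0 : 0 ≤ ((D : ℝ) - 2 * h) / ((m : ℝ) - 2 * h) := by
      apply div_nonneg <;> linarith
    have h3 : (((D : ℝ) - 2 * h) / ((m : ℝ) - 2 * h)) ^ h ≤
        (((D : ℝ) - 2 * h - 2) / ((m : ℝ) - 2 * h - 2)) ^ h :=
      pow_le_pow_left₀ hq0 hq h
    have e4 : ((D : ℝ) - 2 * ((h + 1 : ℕ) : ℝ)) / ((m : ℝ) - 2 * ((h + 1 : ℕ) : ℝ)) =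
        ((D : ℝ) - 2 * h - 2) / ((m : ℝ) - 2 * h - 2) := by
      push_cast
      congr 1 <;> ring
    rw [e4, pow_succ]
    apply mul_le_mul_of_nonneg_right (ih'.trans h3)
    apply div_nonneg <;> linarith

section projection

variable (W : Submodule ℝ (E d))

/-- The projection onto the orthogonal complement. -/
noncomputable def projO : E d → ↥Wᗮ := fun g => Wᗮ.orthogonalProjectionOnto g

lemma norm_projO (g : E d) : ‖projO W g‖ = hdist W g := by
  unfold projO hdist
  have h1 : ((Wᗮ.orthogonalProjectionOnto g : ↥Wᗮ) : E d) = g - W.starProjection g :=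
    Submodule.starProjection_orthogonal_val g
  rw [Submodule.coe_norm, h1]

lemma measurable_projO : Measurable (projO W) :=
  (Wᗮ.orthogonalProjectionOnto).continuous.measurable

lemma continuous_hdist : Continuous (hdist W) := by
  unfold hdist
  fun_prop

/-- The Gaussian law of the projection. -/
lemma map_projO : (stdGaussian (E d)).map (projO W) = stdGaussian ↥Wᗮ := by
  have hm := measurable_projO W
  have : IsProbabilityMeasure ((stdGaussian (E d)).map (projO W)) :=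
    Measure.isProbabilityMeasure_map hm.aemeasurable
  apply Measure.ext_of_charFun
  ext t
  rw [charFun_stdGaussian, charFun_apply, integral_map hm.aemeasurable
    (Measurable.aestronglyMeasurable (by fun_prop))]
  have h1 : ∀ g : E d, Complex.exp (((⟪projO W g, t⟫ : ℝ) : ℂ) * Complex.I) =
      Complex.exp (((⟪g, (t : E d)⟫ : ℝ) : ℂ) * Complex.I) := by
    intro g
    congr 3
    unfold projO
    have h1 : ((Wᗮ.orthogonalProjectionOnto g : ↥Wᗮ) : E d) = g - W.starProjection g :=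
      Submodule.starProjection_orthogonal_val g
    rw [Submodule.coe_inner, h1, inner_sub_left,
      Submodule.inner_right_of_mem_orthogonal (Submodule.starProjection_apply_mem W g) t.2, sub_zero]
  simp_rw [h1]
  have h2 := charFun_stdGaussian (E := E d) (t : E d)
  rw [charFun_apply] at h2
  rw [h2, Submodule.coe_norm]

end projection

lemma hdist_smul (W : Submodule ℝ (E d)) (r : ℝ) (g : E d) :
    hdist W (r • g) = |r| * hdist W g := by
  unfold hdist
  rw [map_smul, ← smul_sub, norm_smul, Real.norm_eq_abs]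

/-- The integrand of the moment as a function of the Gaussian vector. -/
noncomputable def Hh (W : Submodule ℝ (E d)) (h : ℕ) (g : E d) : ℝ≥0∞ :=
  (ENNReal.ofReal (hdist W ((‖g‖⁻¹ : ℝ) • g)))⁻¹ ^ (2 * h)

lemma measurable_moment (W : Submodule ℝ (E d)) (h : ℕ) :
    Measurable (fun s : E d => (ENNReal.ofReal (hdist W s))⁻¹ ^ (2 * h)) :=
  (((continuous_hdist W).measurable.ennreal_ofReal).inv).pow_const _

/-- Negative moments of the distance to a subspace. -/
theorem moment_hdist (W : Submodule ℝ (E d)) {h : ℕ}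
    (hh : 2 * h + Module.finrank ℝ W < d) :
    ∫⁻ s, (ENNReal.ofReal (hdist W s))⁻¹ ^ (2 * h) ∂(sphereM d) ≤
      ENNReal.ofReal ((((d : ℝ) - 2 * h) / ((d : ℝ) - Module.finrank ℝ W - 2 * h)) ^ h) := by
  have hd : 0 < d := by omega
  have hfr : Module.finrank ℝ (E d) = d := by simp
  have : NeZero d := ⟨hd.ne'⟩
  have hnt : Nontrivial (E d) := by
    apply Module.nontrivial_of_finrank_pos (R := ℝ)
    rw [hfr]
    exact hd
  have hsum := Submodule.finrank_add_finrank_orthogonal W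
  rw [hfr] at hsum
  set k := Module.finrank ℝ W with hk
  set m := Module.finrank ℝ ↥Wᗮ with hm
  have hmk : m = d - k := by omega
  have hnt2 : Nontrivial ↥Wᗮ := by
    apply Module.nontrivial_of_finrank_pos (R := ℝ)
    omega
  -- the moment as a Gaussian integral
  have hS : ∫⁻ s, (ENNReal.ofReal (hdist W s))⁻¹ ^ (2 * h) ∂(sphereM d) =
      ∫⁻ g, Hh W h g ∂(stdGaussian (E d)) := by
    unfold sphereM
    rw [lintegral_map (measurable_moment W h) measurable_normalize]
    rfl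
  rw [hS]
  have hHm : Measurable (Hh W h) := (measurable_moment W h).comp measurable_normalize
  have hGm : Measurable (fun r : ℝ => (ENNReal.ofReal r)⁻¹ ^ (2 * h)) :=
    ((ENNReal.measurable_ofReal).inv).pow_const _
  have hhom : ∀ (r : ℝ) (y : E d), 0 < r → Hh W h (r • y) = Hh W h y := by
    intro r y hr
    unfold Hh
    congr 3
    rw [norm_smul, Real.norm_eq_abs, abs_of_pos hr, smul_smul]
    by_cases hy : y = 0
    · simp [hy]
    · have hy0 : ‖y‖ ≠ 0 := norm_ne_zero_iff.2 hy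
      have : (r * ‖y‖)⁻¹ * r = ‖y‖⁻¹ := by
        field_simp
      rw [this]
  have hrad := lintegral_radial_mul (Y := E d) hGm hHm hhom
  -- the left side
  have hleft : ∫⁻ g, (ENNReal.ofReal ‖g‖)⁻¹ ^ (2 * h) * Hh W h g ∂(stdGaussian (E d)) =
      ∫⁻ y, (ENNReal.ofReal ‖y‖)⁻¹ ^ (2 * h) ∂(stdGaussian ↥Wᗮ) := by
    have hfm : Measurable (fun y : ↥Wᗮ => (ENNReal.ofReal ‖y‖)⁻¹ ^ (2 * h)) :=
      hGm.comp measurable_norm
    rw [← map_projO W, lintegral_map hfm (measurable_projO W)]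
    apply lintegral_congr_ae
    filter_upwards [ae_ne_zero (Y := E d)] with g hg
    rw [norm_projO]
    unfold Hh
    rw [hdist_smul, abs_of_nonneg (by positivity)]
    have hg0 : 0 < ‖g‖ := norm_pos_iff.2 hg
    rw [← mul_pow]
    congr 1
    have e1 : ENNReal.ofReal (‖g‖⁻¹ * hdist W g) =
        (ENNReal.ofReal ‖g‖)⁻¹ * ENNReal.ofReal (hdist W g) := by
      rw [ENNReal.ofReal_mul (inv_pos.2 hg0).le, ENNReal.ofReal_inv_of_pos hg0]
    rw [e1, ENNReal.mul_inv (Or.inr ENNReal.ofReal_ne_top) (Or.inl (by simp [hg])), inv_inv,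
      ← mul_assoc, ENNReal.inv_mul_cancel (by simp [hg]) ENNReal.ofReal_ne_top, one_mul]
  rw [hleft] at hrad
  have hm2 : 2 * h < m := by omega
  have hd2 : 2 * h < d := by omega
  have hn1 := negM_eq (Y := ↥Wᗮ) (h := h) hm2
  have hn2 := negM_eq (Y := E d) (h := h) (by rw [hfr]; exact hd2)
  rw [hn1, hn2, hfr] at hrad
  rw [← hm] at hrad
  set A := TT (m - 1 - 2 * h) / TT (m - 1) with hA
  set B := TT (d - 1 - 2 * h) / TT (d - 1) with hB
  have hA0 : 0 < A := div_pos (TT_pos _) (TT_pos _)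
  have hB0 : 0 < B := div_pos (TT_pos _) (TT_pos _)
  set I := ∫⁻ g, Hh W h g ∂(stdGaussian (E d)) with hI
  have hI2 : I = ENNReal.ofReal (A / B) := by
    have h1 : ENNReal.ofReal A = ENNReal.ofReal B * I := hrad
    rw [ENNReal.ofReal_div_of_pos hB0]
    exact (ENNReal.eq_div_iff (ENNReal.ofReal_pos.2 hB0).ne' ENNReal.ofReal_ne_top).2 h1.symm
  rw [hI2]
  apply ENNReal.ofReal_le_ofReal
  have hbd := ratio_bound (m := m) (D := d) (by omega) hm2
  have e : ((d : ℝ) - k - 2 * h) = (m : ℝ) - 2 * h := by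
    rw [hmk, Nat.cast_sub (by omega)]
  rw [e]
  exact hbd

theorem sphereM_ae_unit (hd : 0 < d) : ∀ᵐ s ∂(sphereM d), ‖s‖ = 1 := by
  have hnt : Nontrivial (E d) := by
    apply Module.nontrivial_of_finrank_pos (R := ℝ)
    simpa using hd
  unfold sphereM
  rw [ae_map_iff measurable_normalize.aemeasurable
    (measurableSet_eq_fun measurable_norm measurable_const)]
  filter_upwards [ae_ne_zero (Y := E d)] with g hg
  have hg0 : ‖g‖ ≠ 0 := norm_ne_zero_iff.2 hg
  rw [norm_smul, norm_inv, norm_norm, inv_mul_cancel₀ hg0]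

theorem sphereM_map_isometry (R : E d ≃ₗᵢ[ℝ] E d) : (sphereM d).map R = sphereM d := by
  unfold sphereM
  rw [Measure.map_map R.continuous.measurable measurable_normalize]
  have e : (⇑R ∘ fun g : E d => (‖g‖⁻¹ : ℝ) • g) = (fun g : E d => (‖g‖⁻¹ : ℝ) • g) ∘ ⇑R := by
    ext g
    simp [R.norm_map]
  rw [e, ← Measure.map_map measurable_normalize R.continuous.measurable]
  have := stdGaussian_map R
  rw [this]

/-- The two dimensional form of the cap bound. -/
theorem cap_bound {ŝ : E d} (hŝ : ‖ŝ‖ = 1) {ε : ℝ} (hε : 0 < ε) {h : ℕ} (hh : 2 * h + 1 < d) :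
    (sphereM d).real {s | ‖s‖ = 1 ∧ arccos ⟪ŝ, s⟫ ≤ ε} ≤
      ε ^ (2 * h) * (((d : ℝ) - 2 * h) / ((d : ℝ) - 1 - 2 * h)) ^ h := by
  set W : Submodule ℝ (E d) := ℝ ∙ ŝ with hW
  have hs0 : ŝ ≠ 0 := by
    intro h0
    rw [h0, norm_zero] at hŝ
    exact zero_ne_one hŝ
  have hfin : Module.finrank ℝ W = 1 := finrank_span_singleton hs0
  have hmom := moment_hdist W (h := h) (by rw [hfin]; exact hh)
  rw [hfin] at hmom
  push_cast at hmom
  set B : ℝ := (((d : ℝ) - 2 * h) / ((d : ℝ) - 1 - 2 * h)) ^ h with hB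
  have hdR : (2 * (h : ℝ) + 1) < d := by exact_mod_cast hh
  have hB0 : 0 ≤ B := by
    apply pow_nonneg
    apply div_nonneg <;> linarith
  set f : E d → ℝ≥0∞ := fun s => (ENNReal.ofReal (hdist W s))⁻¹ ^ (2 * h) with hf
  have hfm : Measurable f := measurable_moment W h
  set c : ℝ≥0∞ := (ENNReal.ofReal ε)⁻¹ ^ (2 * h) with hc
  have hsub : {s : E d | ‖s‖ = 1 ∧ arccos ⟪ŝ, s⟫ ≤ ε} ⊆ {s | c ≤ f s} := by
    intro s hs
    obtain ⟨hs1, hs2⟩ := hs
    have hd1 : hdist W s ≤ ε := by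
      unfold hdist
      rw [hW, Submodule.starProjection_unit_singleton ℝ hŝ]
      have hin : ⟪ŝ, s⟫ ^ 2 ≤ 1 := by
        have := abs_real_inner_le_norm ŝ s
        rw [hŝ, hs1, one_mul] at this
        have h3 := abs_le.1 this
        nlinarith [h3.1, h3.2]
      have hsq : ‖s - ⟪ŝ, s⟫ • ŝ‖ ^ 2 = 1 - ⟪ŝ, s⟫ ^ 2 := by
        rw [← real_inner_self_eq_norm_sq]
        simp only [inner_sub_left, inner_sub_right, inner_smul_left, inner_smul_right,
          conj_trivial, real_inner_self_eq_norm_sq, hs1, hŝ, real_inner_comm ŝ s]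
        ring
      have hsin : sin (arccos ⟪ŝ, s⟫) = √(1 - ⟪ŝ, s⟫ ^ 2) := sin_arccos _
      have hn : ‖s - ⟪ŝ, s⟫ • ŝ‖ = sin (arccos ⟪ŝ, s⟫) := by
        rw [hsin, ← hsq, Real.sqrt_sq (norm_nonneg _)]
      rw [hn]
      exact (sin_le (arccos_nonneg _)).trans hs2
    show c ≤ f s
    apply pow_le_pow_left₀ bot_le
    exact ENNReal.inv_le_inv.2 (ENNReal.ofReal_le_ofReal hd1)
  have hM := mul_meas_ge_le_lintegral (μ := sphereM d) hfm c
  have hM2 : c * (sphereM d) {s | c ≤ f s} ≤ ENNReal.ofReal B := hM.trans hmom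
  have hc0 : c ≠ 0 := by
    simp [hc]
  have hctop : c ≠ ⊤ := by
    simp [hc, hε]
  have hμ : (sphereM d) {s : E d | ‖s‖ = 1 ∧ arccos ⟪ŝ, s⟫ ≤ ε} ≤
      ENNReal.ofReal (ε ^ (2 * h) * B) := by
    calc (sphereM d) {s : E d | ‖s‖ = 1 ∧ arccos ⟪ŝ, s⟫ ≤ ε} ≤ (sphereM d) {s | c ≤ f s} :=
          measure_mono hsub
      _ = c⁻¹ * (c * (sphereM d) {s | c ≤ f s}) := by
          rw [← mul_assoc, ENNReal.inv_mul_cancel hc0 hctop, one_mul]
      _ ≤ c⁻¹ * ENNReal.ofReal B := by gcongr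
      _ = ENNReal.ofReal (ε ^ (2 * h) * B) := by
          rw [ENNReal.ofReal_mul (by positivity), ENNReal.ofReal_pow hε.le, hc, ← ENNReal.inv_pow,
            inv_inv]
  have hfinal := ENNReal.toReal_mono ENNReal.ofReal_ne_top hμ
  rw [ENNReal.toReal_ofReal (by positivity)] at hfinal
  exact hfinal

end Vale.Agent.P309
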