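import Vale.Agent.P309.Entropy
import Vale.Agent.P309.Sphere

/-!
From dyadic cells to arbitrary measurable rules.
-/

open MeasureTheory ProbabilityTheory Real Set Filter Topology
open scoped RealInnerProductSpace ENNReal

namespace Vale.Agent.P309

section Atoms

variable {Ω ι : Type*} [mΩ : MeasurableSpace Ω] [mι : MeasurableSpace ι] [Countable ι]
  [MeasurableSingletonClass ι] {σ : Measure Ω} [IsProbabilityMeasure σ]

theorem atom_ae_eq_condExp {c : Ω → ι} (hc : Measurable c) {φ : ι → ℝ} {B : ℝ}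
    (hφB : ∀ i, |φ i| ≤ B) {g : Ω → ℝ} (hg : Integrable g σ)
    (hφ : ∀ i, σ.real (c ⁻¹' {i}) ≠ 0 →
      φ i = (σ.real (c ⁻¹' {i}))⁻¹ * ∫ s in c ⁻¹' {i}, g s ∂σ) :
    (fun s => φ (c s)) =ᵐ[σ] σ[g | MeasurableSpace.comap c mι] := by
  have hm : MeasurableSpace.comap c mι ≤ mΩ := hc.comap_le
  have hφm : Measurable φ := Measurable.of_discrete
  have hmeas : Measurable (fun s => φ (c s)) := hφm.comp hc
  have hint : Integrable (fun s => φ (c s)) σ :=
    Integrable.of_bound hmeas.aestronglyMeasurable B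
      (Filter.Eventually.of_forall fun s => by simpa using hφB (c s))
  refine ae_eq_condExp_of_forall_setIntegral_eq hm hg (fun _ _ _ => hint.integrableOn) ?_ ?_
  · intro t ht _
    obtain ⟨T, _, rfl⟩ := ht
    have hatoms : ∀ i, ∫ s in c ⁻¹' ({i} ∩ T), φ (c s) ∂σ = ∫ s in c ⁻¹' ({i} ∩ T), g s ∂σ := by
      intro i
      by_cases hi : i ∈ T
      · have e : ({i} ∩ T : Set ι) = {i} := by
          ext x; simp only [Set.mem_inter_iff, Set.mem_singleton_iff]
          exact ⟨fun h => h.1, fun h => ⟨h, h ▸ hi⟩⟩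
        rw [e]
        have hmeasi : MeasurableSet (c ⁻¹' {i}) := hc (measurableSet_singleton i)
        have h1 : ∫ s in c ⁻¹' {i}, φ (c s) ∂σ = ∫ _ in c ⁻¹' {i}, φ i ∂σ := by
          refine setIntegral_congr_fun hmeasi fun s hs => ?_
          have : c s = i := hs
          simp [this]
        rw [h1, setIntegral_const, smul_eq_mul]
        by_cases h0 : σ.real (c ⁻¹' {i}) = 0
        · have hnull : σ (c ⁻¹' {i}) = 0 := by
            rwa [measureReal_eq_zero_iff] at h0
          rw [h0, Measure.restrict_eq_zero.2 hnull]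
          simp
        · rw [hφ i h0]
          field_simp
      · have e : ({i} ∩ T : Set ι) = ∅ := by
          ext x; simp only [Set.mem_inter_iff, Set.mem_singleton_iff, Set.mem_empty_iff_false,
            iff_false, not_and]
          exact fun h => h ▸ hi
        simp [e]
    have hU : c ⁻¹' T = ⋃ i, c ⁻¹' ({i} ∩ T) := by
      ext s
      simp
    have hmT : ∀ i, MeasurableSet (c ⁻¹' ({i} ∩ T)) := by
      intro i
      exact hc (MeasurableSet.of_discrete)
    have hdis : Pairwise (Function.onFun Disjoint fun i => c ⁻¹' ({i} ∩ T)) := by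
      intro i j hij
      refine Set.disjoint_left.2 fun s hs hs' => hij ?_
      have h1 : c s = i := hs.1
      have h2 : c s = j := hs'.1
      rw [← h1, h2]
    rw [hU, integral_iUnion hmT hdis hint.integrableOn, integral_iUnion hmT hdis hg.integrableOn]
    simp_rw [hatoms]
  · exact (hφm.comp (comap_measurable c)).stronglyMeasurable.aestronglyMeasurable


/-- Levy upward, for a refining sequence of countable partitions. -/
theorem levy_cells {c : ℕ → Ω → ι} (hc : ∀ n, Measurable (c n)) (pr : ℕ → ι → ι)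
    (hpr : ∀ n s, c n s = pr n (c (n + 1) s)) {g : Ω → ℝ} (hg : Integrable g σ)
    (hgm : StronglyMeasurable[⨆ n, MeasurableSpace.comap (c n) mι] g)
    {φ : ℕ → ι → ℝ} {B : ℝ} (hφB : ∀ n i, |φ n i| ≤ B)
    (hφ : ∀ n i, σ.real (c n ⁻¹' {i}) ≠ 0 →
      φ n i = (σ.real (c n ⁻¹' {i}))⁻¹ * ∫ s in c n ⁻¹' {i}, g s ∂σ) :
    Tendsto (fun n => ∫ s, |φ n (c n s) - g s| ∂σ) atTop (𝓝 0) := by
  let ℱ : Filtration ℕ mΩ :=
    { seq := fun n => MeasurableSpace.comap (c n) mι
      mono' := monotone_nat_of_le_succ fun n => by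
        have e : c n = pr n ∘ c (n + 1) := by funext s; exact hpr n s
        change MeasurableSpace.comap (c n) mι ≤ MeasurableSpace.comap (c (n + 1)) mι
        rw [e, ← MeasurableSpace.comap_comp]
        exact MeasurableSpace.comap_mono (Measurable.of_discrete (f := pr n)).comap_le
      le' := fun n => (hc n).comap_le }
  have hlevy : Tendsto (fun n => eLpNorm (σ[g | ℱ n] - g) 1 σ) atTop (𝓝 0) :=
    hg.tendsto_eLpNorm_condExp (ℱ := ℱ) hgm
  have hreal := (ENNReal.tendsto_toReal ENNReal.zero_ne_top).comp hlevy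
  simp only [ENNReal.toReal_zero] at hreal
  refine hreal.congr fun n => ?_
  have hae : (fun s => φ n (c n s) - g s) =ᵐ[σ] σ[g | ℱ n] - g := by
    filter_upwards [atom_ae_eq_condExp (hc n) (hφB n) hg (hφ n)] with s hs
    simp only [Pi.sub_apply]
    rw [hs]
  have hmeas : Measurable fun s => φ n (c n s) :=
    (Measurable.of_discrete (f := φ n)).comp (hc n)
  have hae2 : AEStronglyMeasurable (fun s => φ n (c n s) - g s) σ :=
    hmeas.aestronglyMeasurable.sub hg.aestronglyMeasurable
  simp only [Function.comp_apply]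
  rw [← eLpNorm_congr_ae hae, eLpNorm_one_eq_lintegral_enorm,
    ← integral_norm_eq_lintegral_enorm hae2]
  simp only [Real.norm_eq_abs]

end Atoms

section Cells

variable {d w : ℕ}

theorem floor_half (x : ℝ) : ⌊x⌋ = ⌊(⌊2 * x⌋ : ℝ) / 2⌋ := by
  symm
  rw [Int.floor_eq_iff]
  have h1 : ((⌊x⌋ : ℝ)) ≤ x := Int.floor_le x
  have h2 : x < (⌊x⌋ : ℝ) + 1 := Int.lt_floor_add_one x
  constructor
  · have : 2 * ⌊x⌋ ≤ ⌊2 * x⌋ := by
      rw [Int.le_floor]
      push_cast
      linarith
    have h3 : (2 : ℝ) * (⌊x⌋ : ℝ) ≤ (⌊2 * x⌋ : ℝ) := by exact_mod_cast this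
    linarith
  · have h3 : (⌊2 * x⌋ : ℝ) ≤ 2 * x := Int.floor_le _
    linarith

/-- The map on cells that forgets one binary digit. -/
noncomputable def coarsen (w : ℕ) (i : Fin w → ℤ) : Fin w → ℤ := fun l => ⌊(i l : ℝ) / 2⌋

theorem cell_coarsen (n : ℕ) (A : Rows d w) (s : E d) :
    cell n A s = coarsen w (cell (n + 1) A s) := by
  funext l
  simp only [cell, coarsen]
  rw [show (2 : ℝ) ^ (n + 1) * ⟪A l, s⟫ = 2 * ((2 : ℝ) ^ n * ⟪A l, s⟫) by ring]
  exact floor_half _

theorem measurable_cell_pair (n : ℕ) :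
    Measurable fun p : Rows d w × E d => cell n p.1 p.2 := by
  refine measurable_pi_lambda _ fun l => ?_
  have : Measurable fun p : Rows d w × E d => (2 : ℝ) ^ n * ⟪p.1 l, p.2⟫ :=
    (((continuous_apply l).comp continuous_fst).inner continuous_snd |>.measurable).const_mul _
  exact Int.measurable_floor.comp this

theorem measurable_obs_pair' : Measurable fun p : Rows d w × E d => obs p.1 p.2 :=
  measurable_pi_lambda _ fun l =>
    (((continuous_apply l).comp continuous_fst).inner continuous_snd).measurable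

theorem cell_tendsto (A : Rows d w) (s : E d) (l : Fin w) :
    Tendsto (fun n : ℕ => (1 / 2 : ℝ) ^ n * (cell n A s l : ℝ)) atTop (𝓝 (obs A s l)) := by
  have hbound : ∀ n : ℕ, |(1 / 2 : ℝ) ^ n * (cell n A s l : ℝ) - obs A s l| ≤ (1 / 2 : ℝ) ^ n := by
    intro n
    have h2 : (0 : ℝ) < (1 / 2 : ℝ) ^ n := by positivity
    have he : (1 / 2 : ℝ) ^ n * (2 : ℝ) ^ n = 1 := by
      rw [← mul_pow]; norm_num
    set y : ℝ := (2 : ℝ) ^ n * ⟪A l, s⟫ with hy
    have hobs : obs A s l = (1 / 2 : ℝ) ^ n * y := by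
      rw [hy, ← mul_assoc, he, one_mul]; rfl
    have hc : (cell n A s l : ℝ) = (⌊y⌋ : ℝ) := rfl
    rw [hobs, hc, ← mul_sub, abs_mul, abs_of_pos h2]
    have h3 : |(⌊y⌋ : ℝ) - y| ≤ 1 := by
      rw [abs_le]
      have h4 := Int.floor_le y
      have h5 := Int.lt_floor_add_one y
      constructor <;> linarith
    calc _ ≤ (1 / 2 : ℝ) ^ n * 1 := mul_le_mul_of_nonneg_left h3 h2.le
      _ = _ := mul_one _
  have hlim : Tendsto (fun n : ℕ => (1 / 2 : ℝ) ^ n) atTop (𝓝 0) :=
    tendsto_pow_atTop_nhds_zero_of_lt_one (by norm_num) (by norm_num)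
  rw [tendsto_iff_norm_sub_tendsto_zero]
  exact squeeze_zero (fun n => norm_nonneg _) (fun n => by simpa using hbound n) hlim

theorem obs_measurable_sup (A : Rows d w) :
    Measurable[⨆ n, MeasurableSpace.comap (cell n A) (inferInstance : MeasurableSpace (Fin w → ℤ))]
      (obs A) := by
  refine @measurable_pi_lambda _ _ _ (_) _ _ fun l => ?_
  refine @measurable_of_tendsto_metrizable (E d) ℝ
    (⨆ n, MeasurableSpace.comap (cell n A) (inferInstance : MeasurableSpace (Fin w → ℤ)))
    _ _ _ _ (fun (n : ℕ) (s : E d) => (1 / 2 : ℝ) ^ n * (cell n A s l : ℝ)) _ (fun n => ?_)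
    (tendsto_pi_nhds.2 fun s => cell_tendsto A s l)
  have h1 : Measurable[⨆ n, MeasurableSpace.comap (cell n A) (inferInstance : MeasurableSpace (Fin w → ℤ))]
      (cell n A) :=
    (comap_measurable (cell n A)).mono (le_iSup (fun n => MeasurableSpace.comap (cell n A) _) n) le_rfl
  have h2 : Measurable fun i : Fin w → ℤ => (1 / 2 : ℝ) ^ n * (i l : ℝ) := Measurable.of_discrete
  exact h2.comp h1

end Cells


section Main

variable {d w : ℕ} {V : Type*} [Fintype V]

open Classical in
/-- The rule that averages `Φ` over the dyadic cell. -/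
noncomputable def limRule (Φ : V → Rows d w → (Fin w → ℝ) → ℝ) (v0 : V) (n : ℕ) (v : V)
    (A : Rows d w) (i : Fin w → ℤ) : ℝ :=
  if (sphereM d).real (cell n A ⁻¹' {i}) = 0 then (if v = v0 then 1 else 0)
  else ((sphereM d).real (cell n A ⁻¹' {i}))⁻¹ *
    ∫ s in cell n A ⁻¹' {i}, Φ v A (obs A s) ∂(sphereM d)

theorem measurable_cell_A (n : ℕ) (A : Rows d w) : Measurable (cell n A : E d → Fin w → ℤ) := by
  refine measurable_pi_lambda _ fun l => ?_
  have : Measurable fun s : E d => (2 : ℝ) ^ n * ⟪A l, s⟫ :=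
    ((continuous_const.inner continuous_id).measurable).const_mul _
  exact Int.measurable_floor.comp this

theorem measurableSet_cellPair (n : ℕ) (i : Fin w → ℤ) :
    MeasurableSet {p : Rows d w × E d | cell n p.1 p.2 = i} :=
  (measurable_cell_pair n) (measurableSet_singleton i)

theorem lim_measurable_mass (n : ℕ) (i : Fin w → ℤ) :
    Measurable fun A : Rows d w => (sphereM d).real (cell n A ⁻¹' {i}) :=
  (measurable_measure_prodMk_left (measurableSet_cellPair n i)).ennreal_toReal

section Rule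

variable {Φ : V → Rows d w → (Fin w → ℝ) → ℝ} (hΦm : ∀ v, Measurable (Function.uncurry (Φ v)))
  (hΦ0 : ∀ v A y, 0 ≤ Φ v A y) (hΦ1 : ∀ A y, ∑ v, Φ v A y = 1)

include hΦ0 hΦ1 in
theorem Φ_le_one (v : V) (A : Rows d w) (y : Fin w → ℝ) : Φ v A y ≤ 1 := by
  rw [← hΦ1 A y]
  exact Finset.single_le_sum (fun i _ => hΦ0 i A y) (Finset.mem_univ v)

include hΦm in
theorem measurable_Φ_pair (v : V) :
    Measurable fun p : Rows d w × E d => Φ v p.1 (obs p.1 p.2) :=
  (hΦm v).comp (measurable_fst.prodMk measurable_obs_pair')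

include hΦm in
theorem measurable_Φ_s (v : V) (A : Rows d w) : Measurable fun s : E d => Φ v A (obs A s) :=
  (measurable_Φ_pair hΦm v).comp (measurable_const.prodMk measurable_id)

include hΦm hΦ0 hΦ1 in
theorem integrable_Φ_s (v : V) (A : Rows d w) :
    Integrable (fun s : E d => Φ v A (obs A s)) (sphereM d) :=
  Integrable.of_bound (measurable_Φ_s hΦm v A).aestronglyMeasurable 1
    (Filter.Eventually.of_forall fun s => by
      rw [Real.norm_eq_abs, abs_of_nonneg (hΦ0 _ _ _)]; exact Φ_le_one hΦ0 hΦ1 _ _ _)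

include hΦm in
theorem measurable_cellInt (n : ℕ) (v : V) (i : Fin w → ℤ) :
    Measurable fun A : Rows d w => ∫ s in cell n A ⁻¹' {i}, Φ v A (obs A s) ∂(sphereM d) := by
  have h1 : ∀ A : Rows d w, ∫ s in cell n A ⁻¹' {i}, Φ v A (obs A s) ∂(sphereM d) =
      ∫ s, ({p : Rows d w × E d | cell n p.1 p.2 = i}.indicator
        (fun p => Φ v p.1 (obs p.1 p.2))) (A, s) ∂(sphereM d) := by
    intro A
    have hm : MeasurableSet (cell n A ⁻¹' {i}) := measurable_cell_A n A (measurableSet_singleton i)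
    rw [← integral_indicator hm]
    refine integral_congr_ae (Filter.Eventually.of_forall fun s => ?_)
    simp only [Set.indicator, Set.mem_preimage, Set.mem_singleton_iff, Set.mem_ofPred_eq]
  simp_rw [h1]
  have h2 : StronglyMeasurable (Function.uncurry fun (A : Rows d w) (s : E d) =>
      ({p : Rows d w × E d | cell n p.1 p.2 = i}.indicator
        (fun p => Φ v p.1 (obs p.1 p.2))) (A, s)) :=
    ((measurable_Φ_pair hΦm v).indicator (measurableSet_cellPair n i)).stronglyMeasurable
  exact (h2.integral_prod_right (ν := sphereM d)).measurable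

include hΦm in
theorem measurable_limRule (v0 : V) (n : ℕ) (v : V) :
    Measurable (Function.uncurry (limRule Φ v0 n v)) := by
  classical
  refine measurable_from_prod_countable_left fun i => ?_
  simp only [Function.uncurry, limRule]
  refine Measurable.ite ?_ measurable_const ?_
  · exact measurableSet_eq_fun (lim_measurable_mass n i) measurable_const
  · exact (lim_measurable_mass n i).inv.mul (measurable_cellInt hΦm n v i)

include hΦ0 in
theorem limRule_nonneg (v0 : V) (n : ℕ) (v : V) (A : Rows d w) (i : Fin w → ℤ) :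
    0 ≤ limRule Φ v0 n v A i := by
  classical
  unfold limRule
  split_ifs
  · norm_num
  · norm_num
  · exact mul_nonneg (inv_nonneg.2 measureReal_nonneg) (integral_nonneg fun s => hΦ0 _ _ _)

include hΦm hΦ0 hΦ1 in
theorem limRule_sum (v0 : V) (n : ℕ) (A : Rows d w) (i : Fin w → ℤ) :
    ∑ v, limRule Φ v0 n v A i = 1 := by
  classical
  unfold limRule
  by_cases h : (sphereM d).real (cell n A ⁻¹' {i}) = 0
  · simp [h]
  · simp only [h, if_false]
    rw [← Finset.mul_sum, ← integral_finsetSum _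
      (fun v _ => (integrable_Φ_s hΦm hΦ0 hΦ1 v A).integrableOn)]
    simp only [hΦ1]
    simp only [integral_const, smul_eq_mul, mul_one]
    rw [measureReal_restrict_apply MeasurableSet.univ, Set.univ_inter]
    exact inv_mul_cancel₀ h

include hΦm hΦ0 hΦ1 in
theorem limRule_le_one (v0 : V) (n : ℕ) (v : V) (A : Rows d w) (i : Fin w → ℤ) :
    limRule Φ v0 n v A i ≤ 1 := by
  rw [← limRule_sum hΦm hΦ0 hΦ1 v0 n A i]
  exact Finset.single_le_sum (fun v _ => limRule_nonneg hΦ0 v0 n v A i) (Finset.mem_univ v)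

include hΦm hΦ0 hΦ1 in
theorem limRule_tendsto (v0 : V) (v : V) (A : Rows d w) :
    Tendsto (fun n => ∫ s, |limRule Φ v0 n v A (cell n A s) - Φ v A (obs A s)| ∂(sphereM d))
      atTop (𝓝 0) := by
  classical
  refine levy_cells (c := fun n => cell n A) (fun n => measurable_cell_A n A)
    (fun _ => coarsen w) (fun n s => cell_coarsen n A s) (integrable_Φ_s hΦm hΦ0 hΦ1 v A)
    ?_ (φ := fun n => limRule Φ v0 n v A) (B := 1) ?_ ?_
  · have hA : Measurable (Φ v A) := (hΦm v).comp (measurable_const.prodMk measurable_id)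
    exact Measurable.stronglyMeasurable (hA.comp (obs_measurable_sup A))
  · intro n i
    rw [abs_of_nonneg (limRule_nonneg hΦ0 v0 n v A i)]
    exact limRule_le_one hΦm hΦ0 hΦ1 v0 n v A i
  · intro n i hi
    simp only [limRule, hi, if_false]

include hΦm in
theorem measurable_rule_pair (v0 : V) (n : ℕ) (v : V) :
    Measurable fun p : Rows d w × E d => limRule Φ v0 n v p.1 (cell n p.1 p.2) := by
  have h1 : Measurable fun p : Rows d w × E d => (p.1, cell n p.1 p.2) :=
    measurable_fst.prodMk (measurable_cell_pair n)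
  have h2 := measurable_limRule hΦm v0 n v
  have h3 := h2.comp h1
  simpa only [Function.comp_def, Function.uncurry] using h3

include hΦm in
theorem measurable_diff_pair (v0 : V) (n : ℕ) (v : V) :
    Measurable fun p : Rows d w × E d =>
      |limRule Φ v0 n v p.1 (cell n p.1 p.2) - Φ v p.1 (obs p.1 p.2)| :=
  continuous_abs.measurable.comp ((measurable_rule_pair hΦm v0 n v).sub (measurable_Φ_pair hΦm v))

include hΦ0 hΦm hΦ1 in
theorem abs_diff_le (v0 : V) (n : ℕ) (v : V) (A : Rows d w) (s : E d) :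
    |limRule Φ v0 n v A (cell n A s) - Φ v A (obs A s)| ≤ 1 := by
  have h1 := limRule_nonneg hΦ0 v0 n v A (cell n A s)
  have h2 := limRule_le_one hΦm hΦ0 hΦ1 v0 n v A (cell n A s)
  have h3 := hΦ0 v A (obs A s)
  have h4 := Φ_le_one hΦ0 hΦ1 v A (obs A s)
  rw [abs_le]
  constructor <;> linarith

include hΦ0 hΦm hΦ1 in
theorem integrable_diff_pair (v0 : V) (n : ℕ) (v : V) :
    Integrable (Function.uncurry fun (A : Rows d w) (s : E d) =>
      |limRule Φ v0 n v A (cell n A s) - Φ v A (obs A s)|) ((rowsM d w).prod (sphereM d)) := by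
  refine Integrable.of_bound (measurable_diff_pair hΦm v0 n v).aestronglyMeasurable 1
    (Filter.Eventually.of_forall fun p => ?_)
  simp only [Function.uncurry, Real.norm_eq_abs, abs_abs]
  exact abs_diff_le hΦm hΦ0 hΦ1 v0 n v p.1 p.2

include hΦ0 hΦm hΦ1 in
theorem limRule_tendsto_avg (v0 : V) (v : V) :
    Tendsto (fun n => ∫ A, ∫ s, |limRule Φ v0 n v A (cell n A s) - Φ v A (obs A s)| ∂(sphereM d)
      ∂(rowsM d w)) atTop (𝓝 0) := by
  have h := tendsto_integral_of_dominated_convergence (μ := rowsM d w)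
    (F := fun n A => ∫ s, |limRule Φ v0 n v A (cell n A s) - Φ v A (obs A s)| ∂(sphereM d))
    (f := fun _ => (0 : ℝ)) (fun _ => (1 : ℝ)) ?_ (integrable_const _) ?_
    (Filter.Eventually.of_forall fun A => limRule_tendsto hΦm hΦ0 hΦ1 v0 v A)
  · simpa using h
  · intro n
    exact (integrable_diff_pair hΦm hΦ0 hΦ1 v0 n v).integral_prod_left.aestronglyMeasurable
  · intro n
    refine Filter.Eventually.of_forall fun A => ?_
    rw [Real.norm_eq_abs, abs_of_nonneg (integral_nonneg fun _ => abs_nonneg _)]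
    calc _ ≤ ∫ _ : E d, (1 : ℝ) ∂(sphereM d) := by
          refine integral_mono ?_ (integrable_const _) fun s => abs_diff_le hΦm hΦ0 hΦ1 v0 n v A s
          refine Integrable.of_bound
            ((measurable_diff_pair hΦm v0 n v).comp
              (measurable_const.prodMk measurable_id)).aestronglyMeasurable 1
            (Filter.Eventually.of_forall fun s => ?_)
          simp only [Real.norm_eq_abs, abs_abs]
          exact abs_diff_le hΦm hΦ0 hΦ1 v0 n v A s
      _ = 1 := by simp

end Rule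


theorem bdd_of_pair {f : E d → ℝ} (hf : BddNN f) {F : ℝ} (hF : ∀ s, f s ≤ F)
    {G : Rows d w × E d → ℝ} (hG : Measurable G) (h0 : ∀ p, 0 ≤ G p) (h1 : ∀ p, G p ≤ 1) :
    BddNN (fun s => f s * ∫ A, G (A, s) ∂(rowsM d w)) ∧
      ∀ s, f s * ∫ A, G (A, s) ∂(rowsM d w) ≤ F := by
  have hint : ∀ s, 0 ≤ ∫ A, G (A, s) ∂(rowsM d w) := fun s => integral_nonneg fun A => h0 _
  have hle : ∀ s, ∫ A, G (A, s) ∂(rowsM d w) ≤ 1 := by
    intro s
    have hi : Integrable (fun A => G (A, s)) (rowsM d w) := by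
      have hm : Measurable fun A : Rows d w => (A, s) := measurable_id.prodMk measurable_const
      refine Integrable.of_bound (hG.comp hm).aestronglyMeasurable 1
        (Filter.Eventually.of_forall fun A => ?_)
      simp only [Real.norm_eq_abs]
      rw [abs_of_nonneg (h0 _)]
      exact h1 _
    calc _ ≤ ∫ _ : Rows d w, (1 : ℝ) ∂(rowsM d w) :=
          integral_mono hi (integrable_const _) fun A => h1 _
      _ = 1 := by simp
  have hb : ∀ s, f s * ∫ A, G (A, s) ∂(rowsM d w) ≤ F := fun s =>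
    calc _ ≤ f s * 1 := mul_le_mul_of_nonneg_left (hle s) (hf.nonneg s)
      _ ≤ F := by simpa using hF s
  refine ⟨⟨?_, fun s => mul_nonneg (hf.nonneg s) (hint s), F, hb⟩, hb⟩
  have hsm : StronglyMeasurable (Function.uncurry fun (s : E d) (A : Rows d w) => G (A, s)) :=
    (hG.comp measurable_swap).stronglyMeasurable
  exact hf.meas.mul (hsm.integral_prod_right (ν := rowsM d w)).measurable

end Main

variable {d w : ℕ}

/-- If the bound holds for all rules that see only the dyadic cell of the labels, at all scales,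
then it holds for all measurable rules. -/
theorem limit_gain {V : Type*} [Fintype V] [Nonempty V] (_hd : 0 < d) {R : ℝ}
    (f : E d → ℝ) (hf : BddNN f)
    (hcell : ∀ (n : ℕ) (φ : V → Rows d w → (Fin w → ℤ) → ℝ),
      (∀ v, Measurable (Function.uncurry (φ v))) → (∀ v A i, 0 ≤ φ v A i) →
      (∀ A i, ∑ v, φ v A i = 1) →
      ∑ v, Hent (sphereM d) (fun s => f s * ∫ A, φ v A (cell n A s) ∂(rowsM d w)) ≤ R)
    (Φ : V → Rows d w → (Fin w → ℝ) → ℝ) (hΦm : ∀ v, Measurable (Function.uncurry (Φ v)))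
    (hΦ0 : ∀ v A y, 0 ≤ Φ v A y) (hΦ1 : ∀ A y, ∑ v, Φ v A y = 1) :
    ∑ v, Hent (sphereM d) (fun s => f s * ∫ A, Φ v A (obs A s) ∂(rowsM d w)) ≤ R := by
  classical
  obtain ⟨v0⟩ := ‹Nonempty V›
  obtain ⟨F, hF⟩ := hf.bdd
  have hF0 : 0 ≤ F := (hf.nonneg 0).trans (hF 0)
  have hbound : ∀ n, ∑ v, Hent (sphereM d)
      (fun s => f s * ∫ A, limRule Φ v0 n v A (cell n A s) ∂(rowsM d w)) ≤ R := fun n =>
    hcell n (limRule Φ v0 n) (fun v => measurable_limRule hΦm v0 n v)
      (fun v A i => limRule_nonneg hΦ0 v0 n v A i) (fun A i => limRule_sum hΦm hΦ0 hΦ1 v0 n A i)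
  have hlim : ∀ v, Tendsto (fun n => Hent (sphereM d)
      (fun s => f s * ∫ A, limRule Φ v0 n v A (cell n A s) ∂(rowsM d w))) atTop
      (𝓝 (Hent (sphereM d) (fun s => f s * ∫ A, Φ v A (obs A s) ∂(rowsM d w)))) := by
    intro v
    have hU := fun n => bdd_of_pair hf hF (measurable_rule_pair hΦm v0 n v)
      (fun p => limRule_nonneg hΦ0 v0 n v p.1 _) (fun p => limRule_le_one hΦm hΦ0 hΦ1 v0 n v p.1 _)
    have hW := bdd_of_pair hf hF (measurable_Φ_pair hΦm v)
      (fun p => hΦ0 v p.1 _) (fun p => Φ_le_one hΦ0 hΦ1 v p.1 _)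
    refine Hent_tendsto (fun n => (hU n).1) hW.1 (fun n => (hU n).2) hW.2 ?_
    have hsq := (limRule_tendsto_avg hΦm hΦ0 hΦ1 v0 v).const_mul F
    rw [mul_zero] at hsq
    refine squeeze_zero (fun n => integral_nonneg fun _ => abs_nonneg _) (fun n => ?_) hsq
    have hfb := integrable_diff_pair hΦm hΦ0 hΦ1 v0 n v
    rw [integral_integral_swap hfb, ← integral_const_mul]
    refine integral_mono_of_nonneg (Filter.Eventually.of_forall fun _ => abs_nonneg _)
      (hfb.integral_prod_right.const_mul F) (Filter.Eventually.of_forall fun s => ?_)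
    have hi1 : Integrable (fun A => limRule Φ v0 n v A (cell n A s)) (rowsM d w) := by
      have hm : Measurable fun A : Rows d w => (A, s) := measurable_id.prodMk measurable_const
      refine Integrable.of_bound ((measurable_rule_pair hΦm v0 n v).comp hm).aestronglyMeasurable 1
        (Filter.Eventually.of_forall fun A => ?_)
      simp only [Real.norm_eq_abs]
      rw [abs_of_nonneg (limRule_nonneg hΦ0 v0 n v A _)]
      exact limRule_le_one hΦm hΦ0 hΦ1 v0 n v A _
    have hi2 : Integrable (fun A => Φ v A (obs A s)) (rowsM d w) := by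
      have hm : Measurable fun A : Rows d w => (A, s) := measurable_id.prodMk measurable_const
      refine Integrable.of_bound ((measurable_Φ_pair hΦm v).comp hm).aestronglyMeasurable 1
        (Filter.Eventually.of_forall fun A => ?_)
      simp only [Real.norm_eq_abs]
      rw [abs_of_nonneg (hΦ0 v A _)]
      exact Φ_le_one hΦ0 hΦ1 v A _
    beta_reduce
    rw [← mul_sub, ← integral_sub hi1 hi2, abs_mul, abs_of_nonneg (hf.nonneg s)]
    calc _ ≤ f s * ∫ A, |limRule Φ v0 n v A (cell n A s) - Φ v A (obs A s)| ∂(rowsM d w) :=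
          mul_le_mul_of_nonneg_left (abs_integral_le_integral_abs) (hf.nonneg s)
      _ ≤ _ := mul_le_mul_of_nonneg_right (hF s) (integral_nonneg fun _ => abs_nonneg _)
  exact le_of_tendsto' (tendsto_finsetSum Finset.univ fun v _ => hlim v) hbound

end Vale.Agent.P309
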