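import Vale.Agent.P309.Cells
import Vale.Agent.P309.Limit
import Vale.Agent.P309.Model

/-!
The learner model and the main theorem.
-/

open MeasureTheory ProbabilityTheory Real Set Filter Topology
open scoped RealInnerProductSpace ENNReal

namespace Vale.Agent.P309

variable {d : ℕ} {V : Type} [Fintype V]

/-! ### Elementary facts -/

theorem integrable_of_unit {Ω : Type*} [MeasurableSpace Ω] {μ : Measure Ω} [IsProbabilityMeasure μ]
    {f : Ω → ℝ} (hm : Measurable f) (h0 : ∀ x, 0 ≤ f x) (h1 : ∀ x, f x ≤ 1) : Integrable f μ :=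
  Integrable.of_bound hm.aestronglyMeasurable 1 (Filter.Eventually.of_forall fun x => by
    rw [Real.norm_eq_abs, abs_of_nonneg (h0 x)]; exact h1 x)

namespace Learner

variable (L : Learner d V)

theorem trans_le_one (t : ℕ) (v : V) (x : E d) (y : ℝ) (v' : V) : L.trans t v x y v' ≤ 1 := by
  rw [← L.trans_sum t v x y]
  exact Finset.single_le_sum (fun i _ => L.trans_nonneg t v x y i) (Finset.mem_univ v')

theorem law_succ (t : ℕ) (s : E d) (v' : V) : L.law (t + 1) s v' =
    ∑ v, L.law t s v * ∫ x, L.trans t v x ⟪x, s⟫ v' ∂(stdGaussian (E d)) := rfl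

theorem measurable_inner_pair : Measurable fun p : E d × E d => (⟪p.1, p.2⟫ : ℝ) :=
  (continuous_fst.inner continuous_snd).measurable

theorem measurable_trans_pair (t : ℕ) (v v' : V) :
    Measurable fun p : E d × E d => L.trans t v p.1 ⟪p.1, p.2⟫ v' :=
  (L.trans_meas t v v').comp (measurable_fst.prodMk measurable_inner_pair)

theorem measurable_trans_x (t : ℕ) (v v' : V) (s : E d) :
    Measurable fun x : E d => L.trans t v x ⟪x, s⟫ v' :=
  (L.measurable_trans_pair t v v').comp (measurable_id.prodMk measurable_const)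

theorem integrable_trans (t : ℕ) (v v' : V) (s : E d) :
    Integrable (fun x : E d => L.trans t v x ⟪x, s⟫ v') (stdGaussian (E d)) :=
  integrable_of_unit (L.measurable_trans_x t v v' s) (fun _ => L.trans_nonneg _ _ _ _ _)
    (fun _ => L.trans_le_one _ _ _ _ _)

theorem law_nonneg (t : ℕ) (s : E d) (v : V) : 0 ≤ L.law t s v := by
  induction t generalizing v with
  | zero => exact L.init_nonneg v
  | succ t ih =>
    rw [law_succ]
    exact Finset.sum_nonneg fun v0 _ =>
      mul_nonneg (ih v0) (integral_nonneg fun x => L.trans_nonneg _ _ _ _ _)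

theorem sum_integral_trans (t : ℕ) (v : V) (s : E d) :
    ∑ v', ∫ x, L.trans t v x ⟪x, s⟫ v' ∂(stdGaussian (E d)) = 1 := by
  rw [← integral_finsetSum _ (fun v' _ => L.integrable_trans t v v' s)]
  simp [L.trans_sum]

theorem law_sum (t : ℕ) (s : E d) : ∑ v, L.law t s v = 1 := by
  induction t with
  | zero => exact L.init_sum
  | succ t ih =>
    simp_rw [law_succ]
    rw [Finset.sum_comm]
    simp_rw [← Finset.mul_sum, L.sum_integral_trans, mul_one]
    exact ih

theorem law_le_one (t : ℕ) (s : E d) (v : V) : L.law t s v ≤ 1 := by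
  rw [← L.law_sum t s]
  exact Finset.single_le_sum (fun i _ => L.law_nonneg t s i) (Finset.mem_univ v)

theorem measurable_law (t : ℕ) (v : V) : Measurable fun s => L.law t s v := by
  induction t generalizing v with
  | zero => exact measurable_const
  | succ t ih =>
    simp_rw [law_succ]
    refine Finset.measurable_sum _ fun v0 _ => (ih v0).mul ?_
    have : StronglyMeasurable (Function.uncurry fun (s x : E d) => L.trans t v0 x ⟪x, s⟫ v) :=
      ((L.measurable_trans_pair t v0 v).comp measurable_swap).stronglyMeasurable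
    exact (this.integral_prod_right (ν := stdGaussian (E d))).measurable

theorem bddNN_law (t : ℕ) (v : V) : BddNN fun s => L.law t s v :=
  ⟨L.measurable_law t v, fun s => L.law_nonneg t s v, 1, fun s => L.law_le_one t s v⟩


open Classical in
/-- The transition probabilities over a window of `l` steps starting at index `t0`. -/
noncomputable def win (t0 : ℕ) : (l : ℕ) → (Fin l → E d) → (Fin l → ℝ) → V → V → ℝ
  | 0, _, _, v, v' => if v' = v then 1 else 0
  | l + 1, A, y, v, v' => ∑ v'', win t0 l (fun i => A i.castSucc) (fun i => y i.castSucc) v v'' *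
      L.trans (t0 + l) v'' (A (Fin.last l)) (y (Fin.last l)) v'

theorem win_succ (t0 l : ℕ) (A : Fin (l + 1) → E d) (y : Fin (l + 1) → ℝ) (v v' : V) :
    L.win t0 (l + 1) A y v v' = ∑ v'', L.win t0 l (fun i => A i.castSucc) (fun i => y i.castSucc) v v'' *
      L.trans (t0 + l) v'' (A (Fin.last l)) (y (Fin.last l)) v' := rfl

theorem win_nonneg (t0 l : ℕ) (A : Fin l → E d) (y : Fin l → ℝ) (v v' : V) :
    0 ≤ L.win t0 l A y v v' := by
  induction l generalizing v' with
  | zero => simp only [win]; split_ifs <;> norm_num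
  | succ l ih =>
    rw [win_succ]
    exact Finset.sum_nonneg fun v0 _ => mul_nonneg (ih _ _ _) (L.trans_nonneg _ _ _ _ _)

theorem win_sum (t0 l : ℕ) (A : Fin l → E d) (y : Fin l → ℝ) (v : V) :
    ∑ v', L.win t0 l A y v v' = 1 := by
  classical
  induction l with
  | zero => simp [win]
  | succ l ih =>
    simp_rw [win_succ]
    rw [Finset.sum_comm]
    simp_rw [← Finset.mul_sum, L.trans_sum, mul_one]
    exact ih _ _

theorem win_le_one (t0 l : ℕ) (A : Fin l → E d) (y : Fin l → ℝ) (v v' : V) :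
    L.win t0 l A y v v' ≤ 1 := by
  rw [← L.win_sum t0 l A y v]
  exact Finset.single_le_sum (fun i _ => L.win_nonneg t0 l A y v i) (Finset.mem_univ v')

theorem measurable_win (t0 l : ℕ) (v v' : V) :
    Measurable fun p : (Fin l → E d) × (Fin l → ℝ) => L.win t0 l p.1 p.2 v v' := by
  induction l generalizing v' with
  | zero => simp only [win]; exact measurable_const
  | succ l ih =>
    simp_rw [win_succ]
    refine Finset.measurable_sum _ fun v0 _ => Measurable.mul ?_ ?_
    · refine (ih v0).comp (Measurable.prodMk ?_ ?_)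
      · exact measurable_pi_lambda _ fun i => (measurable_pi_apply _).comp measurable_fst
      · exact measurable_pi_lambda _ fun i => (measurable_pi_apply _).comp measurable_snd
    · refine (L.trans_meas _ v0 v').comp (Measurable.prodMk ?_ ?_)
      · exact (measurable_pi_apply _).comp measurable_fst
      · exact (measurable_pi_apply _).comp measurable_snd

theorem measurable_obs_pair (w : ℕ) : Measurable fun p : E d × (Fin w → E d) => obs p.2 p.1 :=
  measurable_pi_lambda _ fun i =>
    ((continuous_apply i).comp continuous_snd |>.inner continuous_fst).measurable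

theorem measurable_win_pair (t0 l : ℕ) (v v' : V) :
    Measurable fun p : E d × (Fin l → E d) => L.win t0 l p.2 (obs p.2 p.1) v v' :=
  (L.measurable_win t0 l v v').comp (measurable_snd.prodMk (measurable_obs_pair l))

theorem measurable_win_A (t0 l : ℕ) (v v' : V) (s : E d) :
    Measurable fun A : Fin l → E d => L.win t0 l A (obs A s) v v' :=
  (L.measurable_win_pair t0 l v v').comp (measurable_const.prodMk measurable_id)

theorem integrable_win (t0 l : ℕ) (v v' : V) (s : E d) :
    Integrable (fun A : Fin l → E d => L.win t0 l A (obs A s) v v') (rowsM d l) :=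
  integrable_of_unit (L.measurable_win_A t0 l v v' s) (fun _ => L.win_nonneg _ _ _ _ _ _)
    (fun _ => L.win_le_one _ _ _ _ _ _)

/-- The averaged window kernel. -/
noncomputable def gker (t0 l : ℕ) (v v' : V) (s : E d) : ℝ :=
  ∫ A, L.win t0 l A (obs A s) v v' ∂(rowsM d l)

theorem gker_nonneg (t0 l : ℕ) (v v' : V) (s : E d) : 0 ≤ L.gker t0 l v v' s :=
  integral_nonneg fun _ => L.win_nonneg _ _ _ _ _ _

theorem gker_sum (t0 l : ℕ) (v : V) (s : E d) : ∑ v', L.gker t0 l v v' s = 1 := by
  unfold gker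
  rw [← integral_finsetSum _ (fun v' _ => L.integrable_win t0 l v v' s)]
  simp [L.win_sum]

theorem gker_le_one (t0 l : ℕ) (v v' : V) (s : E d) : L.gker t0 l v v' s ≤ 1 := by
  rw [← L.gker_sum t0 l v s]
  exact Finset.single_le_sum (fun i _ => L.gker_nonneg t0 l v i s) (Finset.mem_univ v')

theorem measurable_gker (t0 l : ℕ) (v v' : V) : Measurable (L.gker t0 l v v') := by
  have : StronglyMeasurable (Function.uncurry fun (s : E d) (A : Fin l → E d) =>
      L.win t0 l A (obs A s) v v') := (L.measurable_win_pair t0 l v v').stronglyMeasurable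
  exact (this.integral_prod_right (ν := rowsM d l)).measurable

end Learner

/-- Integration over one more row. -/
theorem integral_rows_succ (l : ℕ) (W : (Fin l → E d) → ℝ) (H : E d → ℝ) :
    ∫ A : Fin (l + 1) → E d, W (fun i => A i.castSucc) * H (A (Fin.last l)) ∂(rowsM d (l + 1)) =
      (∫ A, W A ∂(rowsM d l)) * ∫ x, H x ∂(stdGaussian (E d)) := by
  have hp := measurePreserving_piFinSuccAbove (fun _ : Fin (l + 1) => stdGaussian (E d))
    (Fin.last l)
  have h2 := hp.integral_comp' (g := fun p : E d × (Fin l → E d) => H p.1 * W p.2)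
  have h3 : ∀ A : Fin (l + 1) → E d,
      (MeasurableEquiv.piFinSuccAbove (fun _ : Fin (l + 1) => E d) (Fin.last l)) A =
        (A (Fin.last l), fun i => A i.castSucc) := by
    intro A
    ext1
    · rfl
    · funext i
      simp [MeasurableEquiv.piFinSuccAbove]
      rfl
  simp only [h3] at h2
  unfold rowsM at *
  rw [mul_comm]
  rw [← integral_prod_mul H W]
  rw [← h2]
  refine integral_congr_ae (Filter.Eventually.of_forall fun A => ?_)
  simp [mul_comm]

namespace Learner

variable (L : Learner d V)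

theorem integral_win_succ (t0 l : ℕ) (v v' : V) (s : E d) :
    L.gker t0 (l + 1) v v' s = ∑ v'', L.gker t0 l v v'' s *
      ∫ x, L.trans (t0 + l) v'' x ⟪x, s⟫ v' ∂(stdGaussian (E d)) := by
  unfold gker
  simp_rw [win_succ]
  rw [integral_finsetSum]
  · refine Finset.sum_congr rfl fun v'' _ => ?_
    exact integral_rows_succ l (fun A => L.win t0 l A (obs A s) v v'')
      (fun x => L.trans (t0 + l) v'' x ⟪x, s⟫ v')
  · intro v'' _
    refine integrable_of_unit ?_ ?_ ?_
    · refine Measurable.mul ?_ ?_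
      · exact (L.measurable_win_A t0 l v v'' s).comp
          (measurable_pi_lambda _ fun i => measurable_pi_apply _)
      · exact (L.measurable_trans_x _ v'' v' s).comp (measurable_pi_apply _)
    · exact fun _ => mul_nonneg (L.win_nonneg _ _ _ _ _ _) (L.trans_nonneg _ _ _ _ _)
    · exact fun _ => mul_le_one₀ (L.win_le_one _ _ _ _ _ _) (L.trans_nonneg _ _ _ _ _)
        (L.trans_le_one _ _ _ _ _)

theorem law_add (t0 l : ℕ) (s : E d) (v' : V) :
    L.law (t0 + l) s v' = ∑ v, L.law t0 s v * L.gker t0 l v v' s := by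
  classical
  induction l generalizing v' with
  | zero =>
    simp [gker, win]
  | succ l ih =>
    rw [← add_assoc, law_succ]
    simp_rw [ih, L.integral_win_succ, Finset.sum_mul, Finset.mul_sum]
    rw [Finset.sum_comm]
    refine Finset.sum_congr rfl fun v _ => Finset.sum_congr rfl fun v'' _ => ?_
    ring


end Learner

/-! ### One window -/

section Window

theorem BddNN.mul_unit {S : Type*} [MeasurableSpace S] {p g : S → ℝ} (hp : BddNN p)
    (hg : Measurable g) (h0 : ∀ s, 0 ≤ g s) (h1 : ∀ s, g s ≤ 1) :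
    BddNN fun s => p s * g s := by
  obtain ⟨F, hF⟩ := hp.bdd
  refine ⟨hp.meas.mul hg, fun s => mul_nonneg (hp.nonneg s) (h0 s), F, fun s => ?_⟩
  calc p s * g s ≤ p s * 1 := mul_le_mul_of_nonneg_left (h1 s) (hp.nonneg s)
    _ ≤ F := by simpa using hF s

/-- The constant of one window. -/
noncomputable def winC (V : Type) [Fintype V] (u : ℕ) : ℝ :=
  (4 / (u : ℝ)) * log (Fintype.card V) + 66 * u + 8

theorem winC_nonneg (u : ℕ) : 0 ≤ winC V u := by
  unfold winC
  have h1 : 0 ≤ log (Fintype.card V) := by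
    apply Real.log_natCast_nonneg
  positivity

variable [Nonempty V] (L : Learner d V)

theorem one_state {u : ℕ} (hu : 8 * u ≤ d) (hu1 : 1 ≤ u) (t0 : ℕ) (v : V)
    (f : E d → ℝ) (hf : BddNN f) (hf1 : ∫ s, f s ∂(sphereM d) = 1) :
    ∑ v', Hent (sphereM d) (fun s => f s * L.gker t0 (4 * u) v v' s) ≤
      4 * (∫ s, f s * log (f s) ∂(sphereM d)) + winC V u := by
  have hd : 0 < d := by omega
  have := limit_gain (V := V) (w := 4 * u) hd
    (R := 4 * (∫ s, f s * log (f s) ∂(sphereM d)) + (4 / (u : ℝ)) * log (Fintype.card V) +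
        66 * u + 8) f hf
    (fun n φ hφm hφ0 hφ1 => cell_gain hu hu1 n φ hφm hφ0 hφ1 f hf hf1)
    (fun v' A y => L.win t0 (4 * u) A y v v') (fun v' => L.measurable_win t0 (4 * u) v v')
    (fun v' A y => L.win_nonneg _ _ _ _ _ _) (fun A y => L.win_sum _ _ _ _ _)
  unfold winC
  calc _ ≤ _ := this
    _ = _ := by ring

theorem Hent_zero_of_ae {S : Type*} [MeasurableSpace S] {σ : Measure S} {p : S → ℝ}
    (h : p =ᵐ[σ] 0) : Hent σ p = 0 := by
  unfold Hent
  have h1 : ∫ s, p s ∂σ = 0 := by
    rw [integral_congr_ae h]; simp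
  have h2 : ∫ s, p s * log (p s) ∂σ = 0 := by
    have : (fun s => p s * log (p s)) =ᵐ[σ] 0 := by
      filter_upwards [h] with s hs
      simp [hs]
    rw [integral_congr_ae this]; simp
  rw [h1, h2]; simp

theorem scaled_step {u : ℕ} (hu : 8 * u ≤ d) (hu1 : 1 ≤ u) (t0 : ℕ) (v : V)
    (p : E d → ℝ) (hp : BddNN p) :
    ∑ v', Hent (sphereM d) (fun s => p s * L.gker t0 (4 * u) v v' s) ≤
      4 * Hent (sphereM d) p + (∫ s, p s ∂(sphereM d)) * winC V u := by
  have hint : Integrable p (sphereM d) := hp.integrable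
  have hpbar : 0 ≤ ∫ s, p s ∂(sphereM d) := integral_nonneg hp.nonneg
  rcases hpbar.eq_or_lt with h0 | hpos
  · have hae : p =ᵐ[sphereM d] 0 := (integral_eq_zero_iff_of_nonneg hp.nonneg hint).1 h0.symm
    have h1 : Hent (sphereM d) p = 0 := Hent_zero_of_ae hae
    have h2 : ∀ v', Hent (sphereM d) (fun s => p s * L.gker t0 (4 * u) v v' s) = 0 := by
      intro v'
      apply Hent_zero_of_ae
      filter_upwards [hae] with s hs
      simp [hs]
    simp [h1, h2, ← h0]
  · set P := ∫ s, p s ∂(sphereM d) with hP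
    have hPne : P ≠ 0 := hpos.ne'
    set f : E d → ℝ := fun s => P⁻¹ * p s with hf_def
    have hf : BddNN f := by
      obtain ⟨F, hF⟩ := hp.bdd
      refine ⟨hp.meas.const_mul _, fun s => mul_nonneg (inv_nonneg.2 hpos.le) (hp.nonneg s),
        P⁻¹ * F, fun s => mul_le_mul_of_nonneg_left (hF s) (inv_nonneg.2 hpos.le)⟩
    have hf1 : ∫ s, f s ∂(sphereM d) = 1 := by
      rw [hf_def, integral_const_mul, ← hP, inv_mul_cancel₀ hPne]
    have hpf : ∀ s, p s = P * f s := by
      intro s
      rw [hf_def]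
      field_simp
    have hmain := one_state L hu hu1 t0 v f hf hf1
    have hHf : Hent (sphereM d) f = ∫ s, f s * log (f s) ∂(sphereM d) := by
      unfold Hent
      rw [hf1]; simp
    have hHp : Hent (sphereM d) p = P * Hent (sphereM d) f := by
      rw [← Hent_const_mul hf hpos.le]
      congr 1
      funext s
      exact hpf s
    have hterm : ∀ v', Hent (sphereM d) (fun s => p s * L.gker t0 (4 * u) v v' s) =
        P * Hent (sphereM d) (fun s => f s * L.gker t0 (4 * u) v v' s) := by
      intro v'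
      rw [← Hent_const_mul (hf.mul_unit (L.measurable_gker _ _ _ _) (L.gker_nonneg _ _ _ _)
        (L.gker_le_one _ _ _ _)) hpos.le]
      congr 1
      funext s
      rw [hpf s]
      ring
    simp_rw [hterm]
    rw [← Finset.mul_sum, hHp, hHf]
    calc _ ≤ P * (4 * (∫ s, f s * log (f s) ∂(sphereM d)) + winC V u) :=
          mul_le_mul_of_nonneg_left hmain hpos.le
      _ = _ := by ring

theorem window_step {u : ℕ} (hu : 8 * u ≤ d) (hu1 : 1 ≤ u) (t0 : ℕ) :
    ∑ v', Hent (sphereM d) (fun s => L.law (t0 + 4 * u) s v') ≤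
      4 * ∑ v, Hent (sphereM d) (fun s => L.law t0 s v) + winC V u := by
  have h1 : ∀ v', Hent (sphereM d) (fun s => L.law (t0 + 4 * u) s v') ≤
      ∑ v, Hent (sphereM d) (fun s => L.law t0 s v * L.gker t0 (4 * u) v v' s) := by
    intro v'
    have : (fun s => L.law (t0 + 4 * u) s v') =
        fun s => ∑ v ∈ Finset.univ, L.law t0 s v * L.gker t0 (4 * u) v v' s := by
      funext s
      exact L.law_add t0 (4 * u) s v'
    rw [this]
    exact Hent_sum_le Finset.univ fun v => (L.bddNN_law t0 v).mul_unit (L.measurable_gker _ _ _ _)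
      (L.gker_nonneg _ _ _ _) (L.gker_le_one _ _ _ _)
  calc _ ≤ ∑ v', ∑ v, Hent (sphereM d) (fun s => L.law t0 s v * L.gker t0 (4 * u) v v' s) :=
        Finset.sum_le_sum fun v' _ => h1 v'
    _ = ∑ v, ∑ v', Hent (sphereM d) (fun s => L.law t0 s v * L.gker t0 (4 * u) v v' s) :=
        Finset.sum_comm
    _ ≤ ∑ v, (4 * Hent (sphereM d) (fun s => L.law t0 s v) +
          (∫ s, L.law t0 s v ∂(sphereM d)) * winC V u) :=
        Finset.sum_le_sum fun v _ => scaled_step L hu hu1 t0 v _ (L.bddNN_law t0 v)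
    _ = _ := by
        rw [Finset.sum_add_distrib, ← Finset.mul_sum, ← Finset.sum_mul,
          ← integral_finsetSum _ (fun v _ => (L.bddNN_law t0 v).integrable)]
        simp [L.law_sum]

theorem Hent_const {S : Type*} [MeasurableSpace S] {σ : Measure S} [IsProbabilityMeasure σ]
    (c : ℝ) : Hent σ (fun _ => c) = 0 := by
  simp [Hent]

theorem info_bound {u : ℕ} (hu : 8 * u ≤ d) (hu1 : 1 ≤ u) (J : ℕ) :
    ∑ v, Hent (sphereM d) (fun s => L.law (J * (4 * u)) s v) ≤
      winC V u * (((4 : ℝ) ^ J - 1) / 3) := by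
  induction J with
  | zero =>
    have : ∀ v, Hent (sphereM d) (fun s => L.law (0 * (4 * u)) s v) = 0 := by
      intro v
      have h : (fun s => L.law (0 * (4 * u)) s v) = fun _ => L.init v := by
        funext s
        simp [Learner.law]
      rw [h]
      exact Hent_const _
    rw [Finset.sum_eq_zero (fun v _ => this v)]
    simp
  | succ J ih =>
    have h := window_step L hu hu1 (J * (4 * u))
    have e : (J + 1) * (4 * u) = J * (4 * u) + 4 * u := by ring
    rw [e]
    calc _ ≤ _ := h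
      _ ≤ 4 * (winC V u * (((4 : ℝ) ^ J - 1) / 3)) + winC V u := by linarith
      _ = _ := by rw [pow_succ]; ring

end Window


/-! ### Padding -/

namespace Learner

open Classical in
/-- The learner that does nothing from index `T` on. -/
noncomputable def pad (L : Learner d V) (T : ℕ) : Learner d V where
  init := L.init
  init_nonneg := L.init_nonneg
  init_sum := L.init_sum
  trans := fun t v x y v' => if t < T then L.trans t v x y v' else if v' = v then 1 else 0
  trans_meas := by
    intro t v v'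
    by_cases h : t < T
    · simpa [h] using L.trans_meas t v v'
    · simp only [h, if_false]; exact measurable_const
  trans_nonneg := by
    intro t v x y v'
    by_cases h : t < T
    · simpa [h] using L.trans_nonneg t v x y v'
    · simp only [h, if_false]; split_ifs <;> norm_num
  trans_sum := by
    intro t v x y
    by_cases h : t < T
    · simpa [h] using L.trans_sum t v x y
    · simp [h]
  output := L.output
  output_prob := L.output_prob

theorem pad_law_le (L : Learner d V) (T t : ℕ) (ht : t ≤ T) (s : E d) (v : V) :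
    (L.pad T).law t s v = L.law t s v := by
  induction t generalizing v with
  | zero => rfl
  | succ t ih =>
    have hlt : t < T := ht
    rw [law_succ, law_succ]
    refine Finset.sum_congr rfl fun v0 _ => ?_
    rw [ih hlt.le]
    congr 1
    refine integral_congr_ae (Filter.Eventually.of_forall fun x => ?_)
    simp [pad, hlt]

theorem pad_law_add (L : Learner d V) (T k : ℕ) (s : E d) (v : V) :
    (L.pad T).law (T + k) s v = L.law T s v := by
  classical
  induction k generalizing v with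
  | zero => exact L.pad_law_le T T le_rfl s v
  | succ k ih =>
    rw [← add_assoc, law_succ]
    have : ∀ v0, ∫ x, (L.pad T).trans (T + k) v0 x ⟪x, s⟫ v ∂(stdGaussian (E d)) =
        if v = v0 then 1 else 0 := by
      intro v0
      have hn : ¬ (T + k < T) := by omega
      simp only [pad, hn, if_false]
      simp
    simp_rw [this, ih]
    simp

end Learner


/-! ### The final state -/

section FanoPart

theorem measurableSet_capPair (ε : ℝ) :
    MeasurableSet {p : E d × E d | ‖p.1‖ = 1 ∧ arccos ⟪p.1, p.2⟫ ≤ ε} := by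
  refine MeasurableSet.inter ?_ ?_
  · exact measurableSet_eq_fun measurable_fst.norm measurable_const
  · exact measurableSet_le
      (Real.continuous_arccos.measurable.comp Learner.measurable_inner_pair) measurable_const

theorem measurableSet_capSlice (ε : ℝ) (ŝ : E d) :
    MeasurableSet {s : E d | ‖ŝ‖ = 1 ∧ arccos ⟪ŝ, s⟫ ≤ ε} :=
  measurable_prodMk_left (measurableSet_capPair ε)

theorem measurableSet_capSlice' (ε : ℝ) (s : E d) :
    MeasurableSet {ŝ : E d | ‖ŝ‖ = 1 ∧ arccos ⟪ŝ, s⟫ ≤ ε} :=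
  measurable_prodMk_right (measurableSet_capPair ε)

theorem cap_real_le (hd : 0 < d) {ε κ : ℝ} (hκ : 0 ≤ κ)
    (hcap : ∀ ŝ : E d, ‖ŝ‖ = 1 → (sphereM d).real {s | ‖s‖ = 1 ∧ arccos ⟪ŝ, s⟫ ≤ ε} ≤ κ)
    (ŝ : E d) : (sphereM d).real {s : E d | ‖ŝ‖ = 1 ∧ arccos ⟪ŝ, s⟫ ≤ ε} ≤ κ := by
  by_cases h : ‖ŝ‖ = 1
  · refine le_trans (le_of_eq ?_) (hcap ŝ h)
    apply measureReal_congr
    filter_upwards [sphereM_ae_unit hd] with s hs
    simp only [eq_iff_iff]
    exact ⟨fun hh => ⟨hs, hh.2⟩, fun hh => ⟨h, hh.2⟩⟩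
  · simp [h, hκ]

theorem fano_state (hd : 0 < d) (Q : Measure (E d)) [IsProbabilityMeasure Q] {q : E d → ℝ}
    (hq : BddNN q) {ε κ : ℝ} (hκ : 0 < κ) (hκ1 : κ ≤ 1)
    (hcap : ∀ ŝ : E d, ‖ŝ‖ = 1 → (sphereM d).real {s | ‖s‖ = 1 ∧ arccos ⟪ŝ, s⟫ ≤ ε} ≤ κ) :
    Integrable (fun s => q s * Q.real {ŝ | ‖ŝ‖ = 1 ∧ arccos ⟪ŝ, s⟫ ≤ ε}) (sphereM d) ∧
    (∫ s, q s * Q.real {ŝ | ‖ŝ‖ = 1 ∧ arccos ⟪ŝ, s⟫ ≤ ε} ∂(sphereM d)) * log (1 / κ) ≤
      Hent (sphereM d) q + (∫ s, q s ∂(sphereM d)) * log 2 := by
  set D : Set (E d × E d) := {p : E d × E d | ‖p.1‖ = 1 ∧ arccos ⟪p.1, p.2⟫ ≤ ε} with hD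
  have hDm : MeasurableSet D := measurableSet_capPair ε
  -- the integrand on the product
  set f : E d → E d → ℝ := fun s ŝ => D.indicator (fun p => q p.2) (ŝ, s) with hf
  have hfm : Measurable (Function.uncurry f) := by
    have : Measurable fun p : E d × E d => D.indicator (fun p => q p.2) p :=
      (hq.meas.comp measurable_snd).indicator hDm
    exact this.comp measurable_swap
  obtain ⟨F, hF⟩ := hq.bdd
  have hfb : Integrable (Function.uncurry f) ((sphereM d).prod Q) := by
    refine Integrable.of_bound hfm.aestronglyMeasurable (|F|) (Filter.Eventually.of_forall ?_)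
    rintro ⟨s, ŝ⟩
    simp only [Function.uncurry, hf, Set.indicator]
    split_ifs
    · rw [Real.norm_eq_abs, abs_of_nonneg (hq.nonneg s)]
      exact (hF s).trans (le_abs_self F)
    · simp
  have hslice : ∀ s, ∫ ŝ, f s ŝ ∂Q = q s * Q.real {ŝ | ‖ŝ‖ = 1 ∧ arccos ⟪ŝ, s⟫ ≤ ε} := by
    intro s
    have hm := measurableSet_capSlice' (d := d) ε s
    have : (fun ŝ => f s ŝ) = {ŝ : E d | ‖ŝ‖ = 1 ∧ arccos ⟪ŝ, s⟫ ≤ ε}.indicator (fun _ => q s) := by
      funext ŝ
      simp only [hf, Set.indicator, hD, Set.mem_ofPred_eq]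
    rw [this, integral_indicator hm, setIntegral_const]
    simp [smul_eq_mul, mul_comm]
  have hslice2 : ∀ ŝ, ∫ s, f s ŝ ∂(sphereM d) =
      ∫ s in {s : E d | ‖ŝ‖ = 1 ∧ arccos ⟪ŝ, s⟫ ≤ ε}, q s ∂(sphereM d) := by
    intro ŝ
    have hm := measurableSet_capSlice (d := d) ε ŝ
    have : (fun s => f s ŝ) = {s : E d | ‖ŝ‖ = 1 ∧ arccos ⟪ŝ, s⟫ ≤ ε}.indicator q := by
      funext s
      simp only [hf, Set.indicator, hD, Set.mem_ofPred_eq]
      congr
    rw [this, integral_indicator hm]
  constructor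
  · have := hfb.integral_prod_left
    simpa only [Function.uncurry, hslice] using this
  · have hsw := integral_integral_swap hfb
    simp only [hslice, hslice2] at hsw
    rw [hsw]
    have hint : Integrable (fun ŝ => ∫ s, f s ŝ ∂(sphereM d)) Q := hfb.integral_prod_right
    simp only [hslice2] at hint
    rw [← integral_mul_const]
    set B := Hent (sphereM d) q + (∫ s, q s ∂(sphereM d)) * log 2 with hB
    have hle : ∀ ŝ, (∫ s in {s : E d | ‖ŝ‖ = 1 ∧ arccos ⟪ŝ, s⟫ ≤ ε}, q s ∂(sphereM d)) * log (1 / κ)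
        ≤ B := fun ŝ =>
      fano hq (measurableSet_capSlice ε ŝ) hκ hκ1 (cap_real_le hd hκ.le hcap ŝ)
    calc _ ≤ ∫ _ : E d, B ∂Q := integral_mono (hint.mul_const _) (integrable_const _) hle
      _ = B := by simp

theorem success_fano [Nonempty V] (hd : 0 < d) (L : Learner d V) (T : ℕ) {ε κ : ℝ} (hκ : 0 < κ)
    (hκ1 : κ ≤ 1)
    (hcap : ∀ ŝ : E d, ‖ŝ‖ = 1 → (sphereM d).real {s | ‖s‖ = 1 ∧ arccos ⟪ŝ, s⟫ ≤ ε} ≤ κ) :
    L.success T ε * log (1 / κ) ≤ ∑ v, Hent (sphereM d) (fun s => L.law T s v) + log 2 := by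
  have h := fun v => @fano_state d hd (L.output v) (L.output_prob v) _ (L.bddNN_law T v) ε κ hκ hκ1 hcap
  unfold Learner.success
  rw [integral_finsetSum _ (fun v _ => (h v).1), Finset.sum_mul]
  calc _ ≤ ∑ v, (Hent (sphereM d) (fun s => L.law T s v) +
        (∫ s, L.law T s v ∂(sphereM d)) * log 2) := Finset.sum_le_sum fun v _ => (h v).2
    _ = _ := by
      rw [Finset.sum_add_distrib, ← Finset.sum_mul,
        ← integral_finsetSum _ (fun v _ => (L.bddNN_law T v).integrable)]
      simp [L.law_sum]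

end FanoPart


/-! ### Arithmetic -/

theorem final_arith {U D Mr a P m : ℝ} (hU : 1 ≤ U) (hD : 0 < D) (hDU : D ≤ 16 * U) (hMr : 0 ≤ Mr)
    (hm : m = Mr / D ^ 2) (hP : 1 ≤ P)
    (h : 3 * U * a ≤ ((4 / U) * Mr + 66 * U + 8) * P / 3 + 1) :
    a ≤ 114 * (1 + m) * P := by
  have hU0 : 0 < U := by linarith
  have hm0 : 0 ≤ m := by rw [hm]; positivity
  have hMU : Mr / U ≤ 256 * m * U := by
    rw [hm, div_le_iff₀ hU0]
    have : 256 * (Mr / D ^ 2) * U * U = Mr * (256 * U ^ 2 / D ^ 2) := by
      field_simp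
    rw [this]
    have h1 : 1 ≤ 256 * U ^ 2 / D ^ 2 := by
      rw [le_div_iff₀ (by positivity)]
      nlinarith
    nlinarith
  have h2 : (4 / U) * Mr = 4 * (Mr / U) := by ring
  rw [h2] at h
  have hUP : 1 ≤ U * P := by nlinarith
  have h3 : 3 * U * a ≤ 3 * U * (114 * (1 + m) * P) := by
    have hmUP : 0 ≤ m * (U * P) := by positivity
    have h4 : (4 * (Mr / U) + 66 * U + 8) * P / 3 + 1 ≤
        (4 * (256 * m * U) + 66 * U + 8) * P / 3 + 1 := by
      have : (4 * (Mr / U) + 66 * U + 8) * P ≤ (4 * (256 * m * U) + 66 * U + 8) * P := by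
        apply mul_le_mul_of_nonneg_right _ (by linarith)
        linarith
      linarith
    have h5 : (4 * (256 * m * U) + 66 * U + 8) * P / 3 + 1 ≤ 3 * U * (114 * (1 + m) * P) := by
      have e1 : (4 * (256 * m * U) + 66 * U + 8) * P / 3 + 1 =
          (1024 / 3) * (m * (U * P)) + 22 * (U * P) + (8 / 3) * P + 1 := by ring
      have e2 : 3 * U * (114 * (1 + m) * P) = 342 * (U * P) + 342 * (m * (U * P)) := by ring
      rw [e1, e2]
      have hPU : P ≤ U * P := by nlinarith
      linarith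
    linarith
  exact le_of_mul_le_mul_left h3 (by positivity)

/-- Main theorem. -/
theorem main_bound : ∃ C : ℝ, 0 < C ∧ ∀ (d : ℕ), 16 ≤ d → ∀ (M T : ℕ) (V : Type) [Fintype V]
    (L : Learner d V) (ε : ℝ), 0 < ε → ε < 1 / 4 → Fintype.card V ≤ 2 ^ M →
    2 / 3 ≤ L.success T ε →
    log (1 / ε) ≤ C * (1 + (M : ℝ) / (d : ℝ) ^ 2) * (256 : ℝ) ^ ((T : ℝ) / (d : ℝ)) := by
  refine ⟨456, by norm_num, ?_⟩
  intro d hd M T V _ L ε hε0 hε hV hsucc
  have : Nonempty V := by
    by_contra hne
    rw [not_nonempty_iff] at hne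
    have := L.init_sum
    simp at this
  have hd0 : 0 < d := by omega
  obtain ⟨u, hu_def⟩ : ∃ u, u = d / 8 := ⟨_, rfl⟩
  have hu : 8 * u ≤ d := by rw [hu_def]; exact Nat.mul_div_le d 8
  have hu1 : 1 ≤ u := by omega
  have hdu : d ≤ 16 * u := by omega
  have hw0 : 0 < 4 * u := by omega
  obtain ⟨J, hJ_def⟩ : ∃ J, J = T / (4 * u) + 1 := ⟨_, rfl⟩
  have hTJ : T ≤ J * (4 * u) := by
    have := Nat.lt_mul_div_succ T hw0
    rw [hJ_def]
    nlinarith
  obtain ⟨k, hk⟩ := Nat.exists_eq_add_of_le hTJ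
  -- the padded learner
  have hlaw : ∀ v, (fun s => (L.pad T).law (J * (4 * u)) s v) = fun s => L.law T s v := by
    intro v
    funext s
    rw [hk]
    exact L.pad_law_add T k s v
  have hinfo : ∑ v, Hent (sphereM d) (fun s => L.law T s v) ≤
      winC V u * (((4 : ℝ) ^ J - 1) / 3) := by
    have := info_bound (L.pad T) hu hu1 J
    simpa only [hlaw] using this
  -- the cap
  set κ : ℝ := ε ^ (2 * (3 * u)) * 2 ^ (3 * u) with hκ_def
  have hκ0 : 0 < κ := by positivity
  have hκ1 : κ ≤ 1 := by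
    have : κ = (ε ^ 2 * 2) ^ (3 * u) := by
      rw [hκ_def, mul_pow, ← pow_mul]
    rw [this]
    apply pow_le_one₀ (by positivity)
    nlinarith
  have hUr : (1 : ℝ) ≤ (u : ℝ) := by exact_mod_cast hu1
  have hdur : (8 : ℝ) * u ≤ (d : ℝ) := by exact_mod_cast hu
  have hcap : ∀ ŝ : E d, ‖ŝ‖ = 1 → (sphereM d).real {s | ‖s‖ = 1 ∧ arccos ⟪ŝ, s⟫ ≤ ε} ≤ κ := by
    intro ŝ hŝ
    refine (cap_bound hŝ hε0 (h := 3 * u) (by omega)).trans ?_
    rw [hκ_def]
    apply mul_le_mul_of_nonneg_left _ (by positivity)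
    push_cast
    have hden : 0 < (d : ℝ) - 1 - 2 * (3 * u) := by linarith
    have hnum : 0 ≤ (d : ℝ) - 2 * (3 * u) := by linarith
    apply pow_le_pow_left₀ (div_nonneg hnum hden.le)
    rw [div_le_iff₀ hden]
    linarith
  have hfano := success_fano hd0 L T hκ0 hκ1 hcap
  -- logarithms
  set a : ℝ := log (1 / ε) with ha_def
  have hlog2 : 0 < log 2 := Real.log_pos (by norm_num)
  have hlog2' : log 2 < 1 := by
    have := Real.log_two_lt_d9
    linarith
  have ha : 2 * log 2 ≤ a := by
    have h4 : log 4 = 2 * log 2 := by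
      rw [show (4 : ℝ) = 2 ^ 2 by norm_num, Real.log_pow]; norm_num
    rw [← h4, ha_def]
    apply Real.log_le_log (by norm_num)
    rw [le_div_iff₀ hε0]
    linarith
  have hlogκ : log (1 / κ) = 6 * u * a - 3 * u * log 2 := by
    rw [one_div, Real.log_inv, hκ_def, Real.log_mul (by positivity) (by positivity), Real.log_pow,
      Real.log_pow, ha_def, one_div, Real.log_inv]
    push_cast
    ring
  have hlogκ0 : (9 / 2) * u * a ≤ log (1 / κ) := by
    rw [hlogκ]
    nlinarith
  have hapos : 0 < a := by linarith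
  have hlogκ1 : 0 ≤ log (1 / κ) := le_trans (by positivity) hlogκ0
  have h1 : 3 * u * a ≤ winC V u * (((4 : ℝ) ^ J - 1) / 3) + 1 := by
    have h2 : (2 / 3) * log (1 / κ) ≤ L.success T ε * log (1 / κ) :=
      mul_le_mul_of_nonneg_right hsucc hlogκ1
    nlinarith
  -- the memory
  have hcard : log (Fintype.card V) ≤ M := by
    have hc : (Fintype.card V : ℝ) ≤ 2 ^ M := by exact_mod_cast hV
    have hc0 : (0 : ℝ) < Fintype.card V := by
      exact_mod_cast Fintype.card_pos
    calc log (Fintype.card V) ≤ log (2 ^ M) := Real.log_le_log hc0 hc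
      _ = M * log 2 := Real.log_pow _ _
      _ ≤ M * 1 := mul_le_mul_of_nonneg_left hlog2'.le (by positivity)
      _ = M := mul_one _
  have hP1 : (1 : ℝ) ≤ (4 : ℝ) ^ J := one_le_pow₀ (by norm_num)
  have h3 : 3 * (u : ℝ) * a ≤ ((4 / (u : ℝ)) * M + 66 * u + 8) * (4 : ℝ) ^ J / 3 + 1 := by
    have hw := winC_nonneg (V := V) u
    have h4 : winC V u ≤ (4 / (u : ℝ)) * M + 66 * u + 8 := by
      unfold winC
      have : (4 / (u : ℝ)) * log (Fintype.card V) ≤ (4 / (u : ℝ)) * M :=
        mul_le_mul_of_nonneg_left hcard (by positivity)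
      linarith
    have h5 : winC V u * (((4 : ℝ) ^ J - 1) / 3) ≤ ((4 / (u : ℝ)) * M + 66 * u + 8) * ((4 : ℝ) ^ J / 3) := by
      apply mul_le_mul h4 (by linarith) (by linarith) (by linarith)
    have e : ((4 / (u : ℝ)) * M + 66 * u + 8) * ((4 : ℝ) ^ J / 3) =
      ((4 / (u : ℝ)) * M + 66 * u + 8) * (4 : ℝ) ^ J / 3 := by ring
    linarith
  have hDr : (0 : ℝ) < d := by exact_mod_cast hd0
  have hdu' : (d : ℝ) ≤ 16 * u := by exact_mod_cast hdu
  have hfinal := final_arith hUr hDr hdu' (Nat.cast_nonneg M) rfl hP1 h3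
  -- the exponent
  have hpow : (4 : ℝ) ^ J ≤ 4 * (256 : ℝ) ^ ((T : ℝ) / (d : ℝ)) := by
    have hx : ((T / (4 * u) : ℕ) : ℝ) ≤ 4 * ((T : ℝ) / d) := by
      calc ((T / (4 * u) : ℕ) : ℝ) ≤ (T : ℝ) / ((4 * u : ℕ) : ℝ) := Nat.cast_div_le
        _ ≤ 4 * ((T : ℝ) / d) := by
          push_cast
          rw [div_le_iff₀ (by positivity)]
          have : 4 * ((T : ℝ) / d) * (4 * u) = (T : ℝ) * (16 * u / d) := by
            field_simp
            ring
          rw [this]
          have h6 : 1 ≤ 16 * (u : ℝ) / d := by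
            rw [le_div_iff₀ hDr]; linarith
          have hT0 : (0 : ℝ) ≤ T := Nat.cast_nonneg T
          nlinarith
    have e256 : (256 : ℝ) ^ ((T : ℝ) / (d : ℝ)) = (4 : ℝ) ^ (4 * ((T : ℝ) / d)) := by
      rw [Real.rpow_mul (by norm_num)]
      norm_num
    rw [e256, hJ_def, pow_succ, mul_comm]
    apply mul_le_mul_of_nonneg_left _ (by norm_num)
    rw [← Real.rpow_natCast]
    exact Real.rpow_le_rpow_of_exponent_le (by norm_num) hx
  calc a ≤ 114 * (1 + (M : ℝ) / (d : ℝ) ^ 2) * (4 : ℝ) ^ J := hfinal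
    _ ≤ 114 * (1 + (M : ℝ) / (d : ℝ) ^ 2) * (4 * (256 : ℝ) ^ ((T : ℝ) / (d : ℝ))) :=
        mul_le_mul_of_nonneg_left hpow (by positivity)
    _ = _ := by ring

end Vale.Agent.P309
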